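import Vale.Agent.P112.T.DefsN

/-!
# P112, chapter (F): density levels, counting classes, forests. Definitions and exact statements

Everything is a statement on pairs `(z, j)`: `P j` is the set of points `z` active at the scale
`j` (length `2 ^ (-j)`). `H ≥ 1` is the height of the (fat) tubes.
-/

open MeasureTheory Set
open scoped ENNReal

set_option linter.dupNamespace false

namespace Vale.Agent.P112.F30

open T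

/-- The line of slope `u U` through the point `U`, at the abscissa `x`. -/
noncomputable def ln (u : ℝ × ℝ → ℝ) (U : ℝ × ℝ) (x : ℝ) : ℝ := U.2 + u U * (x - U.1)

/-- A system of active points: measurable, bounded, convex in the scale. -/
structure PSys (n : ℕ) (P : ℕ → Set (ℝ × ℝ)) : Prop where
  meas : ∀ j, MeasurableSet (P j)
  bdd : ∃ r : ℝ, ∀ j, ∀ z ∈ P j, |z.1| ≤ r ∧ |z.2| ≤ r
  lt : ∀ j, n ≤ j → P j = ∅
  conv : ∀ z, ∀ i j k : ℕ, i ≤ j → j ≤ k → z ∈ P i → z ∈ P k → z ∈ P j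

/-- Common top property of one counting class, slopes `S`, offsets `D`: two active pairs
`(U, jU)`, `(U', jU')` above one active pair `(z, j)` have nearly the same slope. -/
def CT (u : ℝ × ℝ → ℝ) (P : ℕ → Set (ℝ × ℝ)) (S D : ℝ) : Prop :=
  ∀ (j jU jU' : ℕ) (z U U' : ℝ × ℝ), z ∈ P j → U ∈ P jU → U' ∈ P jU' → jU < j → jU' < j →
    |u z - u U| ≤ S / 2 * 2 ^ j → |u z - u U'| ≤ S / 2 * 2 ^ j →
    |z.1 - U.1| ≤ 2 / 2 ^ jU → |z.1 - U'.1| ≤ 2 / 2 ^ jU' →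
    |z.2 - ln u U z.1| ≤ D → |z.2 - ln u U' z.1| ≤ D →
    |u U - u U'| ≤ 2 * S * 2 ^ max jU jU'

/-- The points of `P j` which are active `l` scales before and `L` scales after `j`. -/
def good (P : ℕ → Set (ℝ × ℝ)) (l L : ℕ) (j : ℕ) : Set (ℝ × ℝ) :=
  {z | z ∈ P j ∧ l ≤ j ∧ z ∈ P (j - l) ∧ z ∈ P (j + L)}

/-- Two tops (points `U`, `U'`, levels `jU`, `jU'`, grid `τ`) are near: their tubes over a common
point of both cells are within `T`, and the slopes agree up to `2 S 2 ^ max`. -/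
def Near (u : ℝ × ℝ → ℝ) (τ S T : ℝ) (jU : ℕ) (U : ℝ × ℝ) (jU' : ℕ) (U' : ℝ × ℝ) : Prop :=
  |u U - u U'| ≤ 2 * S * 2 ^ max jU jU' ∧
    ∃ x, q τ jU x = q τ jU U.1 ∧ q τ jU' x = q τ jU' U'.1 ∧ |ln u U x - ln u U' x| ≤ T

/-! ### (FF) the forests of one class -/

/-- Output of (FF): `2 (2 Nb + 1)` separated forests covering the good pairs. The index of a tree
is its top `(jU, U)`; `w` is the offset of the tree relative to the line of `U`. -/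
structure Forests (u : ℝ × ℝ → ℝ) (n : ℕ) (P : ℕ → Set (ℝ × ℝ)) (S H Q : ℝ) (l L : ℕ)
    (K : ℕ) (ι : Fin K → Type) (τ : Fin K → ℝ) (w : Fin K → ℝ)
    (top : ∀ k, ι k → ℝ × ℝ) (lev : ∀ k, ι k → ℕ)
    (E : ∀ k, ι k → ℕ → Set (ℝ × ℝ)) : Prop where
  forest : ∀ k, ForestN 1 u (τ k) 1 H (H + 3) Q n (fun i => u (top k i))
    (fun i => ln u (top k i) 0 + w k) (lev k)
    (fun i => q (τ k) (lev k i) (top k i).1) (E k)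
  sub : ∀ k i j, E k i j ⊆ P j
  cover : ∀ j, ∀ z ∈ good P l L j, ∃ k i, z ∈ E k i j
  uniq : ∀ j z k i k' i', z ∈ E k i j → z ∈ E k' i' j → k = k'
  uniq_top : ∀ k i i' j j' z, z ∈ E k i j → z ∈ E k i' j' → i = i'
  lt : ∀ k i j, (E k i j).Nonempty → lev k i < j
  top_mem : ∀ k i, top k i ∈ P (lev k i)
  not_near : ∀ k i i', i ≠ i' → ¬ Near u (τ k) S (2 * H + 8) (lev k i) (top k i) (lev k i')
    (top k i')
  τ_mem : ∀ k, τ k = 0 ∨ τ k = 1 / 3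

/-- (FF), owner helper30. The number of subforests is at most `C (S + 1)`. -/
def StFF : Prop := ∃ C : ℝ, 0 < C ∧
  ∀ (u : ℝ × ℝ → ℝ), Field u → ∀ (n : ℕ) (P : ℕ → Set (ℝ × ℝ)) (S H Q D : ℝ) (l L : ℕ),
    2 ≤ S → 1 ≤ H → 1 ≤ Q → PSys n P → CT u P S D → 8 * (H + S + Q) ≤ D →
    8 * S ≤ 2 ^ l → 8 * Q ≤ 2 ^ L → 4 ≤ L →
    ∃ (K : ℕ) (ι : Fin K → Type) (_ : ∀ k, Fintype (ι k)) (τ w : Fin K → ℝ)
      (top : ∀ k, ι k → ℝ × ℝ) (lev : ∀ k, ι k → ℕ) (E : ∀ k, ι k → ℕ → Set (ℝ × ℝ)),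
      (K : ℝ) ≤ C * S ∧ Forests u n P S H Q l L K ι τ w top lev E

/-! ### (FC) weighted counts and classes -/

/-- A finite list of tops `m`: level, slope, abscissa, ordinate. -/
structure Tops (κ : Type) where
  j : κ → ℕ
  s : κ → ℝ
  x : κ → ℝ
  y : κ → ℝ

/-- The line of the top `m` at the abscissa `x`. -/
noncomputable def Tops.line {κ : Type} (M : Tops κ) (m : κ) (x : ℝ) : ℝ :=
  M.y m + M.s m * (x - M.x m)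

/-- Slow exponential weight of the top `m` at the point `z`. -/
noncomputable def Tops.w {κ : Type} (M : Tops κ) (ε : ℝ) (m : κ) (z : ℝ × ℝ) : ℝ :=
  Real.exp (-(ε * (2 ^ M.j m * |z.1 - M.x m| + |z.2 - M.line m z.1|)))

open Classical in
/-- The weighted count of the tops above `(z, j)`. -/
noncomputable def Tops.B {κ : Type} [Fintype κ] (M : Tops κ) (u : ℝ × ℝ → ℝ) (S ε : ℝ)
    (z : ℝ × ℝ) (j : ℕ) : ℝ :=
  ∑ m, if M.j m ≤ j ∧ |u z - M.s m| ≤ S * 2 ^ j then M.w ε m z else 0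

/-- The full weighted count of the tops at `z`. -/
noncomputable def Tops.Nw {κ : Type} [Fintype κ] (M : Tops κ) (ε : ℝ) (z : ℝ × ℝ) : ℝ :=
  ∑ m, M.w ε m z

/-- The class `r : ℤ` of the system `P`. -/
def Tops.cls {κ : Type} [Fintype κ] (M : Tops κ) (u : ℝ × ℝ → ℝ) (S ε : ℝ)
    (P : ℕ → Set (ℝ × ℝ)) (r : ℤ) (j : ℕ) : Set (ℝ × ℝ) :=
  {z | z ∈ P j ∧ (3 / 2 : ℝ) ^ r ≤ M.B u S ε z j ∧ M.B u S ε z j < (3 / 2 : ℝ) ^ (r + 1)}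

/-- (FC), owner helper314. -/
def StFC : Prop :=
  ∀ (κ : Type) [Fintype κ] (M : Tops κ) (u : ℝ × ℝ → ℝ), Field u → ∀ (n : ℕ)
    (P : ℕ → Set (ℝ × ℝ)) (S D ε : ℝ), 0 < ε → 0 ≤ S → 0 ≤ D → PSys n P →
    ε * (2 + D + 2 * S) ≤ 1 / 4 →
    (∀ r, PSys n (M.cls u S ε P r)) ∧ (∀ r, CT u (M.cls u S ε P r) S D) ∧
    (∀ j, ∀ z ∈ P j, ∀ m, M.j m ≤ j → |u z - M.s m| ≤ S * 2 ^ j →
      ε * (2 ^ M.j m * |z.1 - M.x m| + |z.2 - M.line m z.1|) ≤ 1 / 4 →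
      ∃ r : ℤ, -1 ≤ r ∧ z ∈ M.cls u S ε P r j) ∧
    (∀ r j, ∀ z ∈ M.cls u S ε P r j, (3 / 2 : ℝ) ^ r ≤ M.Nw ε z) ∧
    Measurable (M.Nw ε) ∧
    ∫⁻ z, ENNReal.ofReal (M.Nw ε z) ≤ ENNReal.ofReal (4 / ε ^ 2 * ∑ m, (1 / 2) ^ M.j m)

/-! ### (FD) density levels and dense tops -/

/-- The points of `E` in the thin tile: level `i`, cell `k`, slope index `a`, offset index `b`. -/
def Et (u : ℝ × ℝ → ℝ) (E : Set (ℝ × ℝ)) (d : ℕ × ℤ × ℤ × ℤ) : Set (ℝ × ℝ) :=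
  {z | z ∈ E ∧ q 0 d.1 z.1 = d.2.1 ∧ ⌊u z / 2 ^ d.1⌋ = d.2.2.1 ∧
    ⌊z.2 - d.2.2.1 * 2 ^ d.1 * z.1⌋ = d.2.2.2}

open Classical in
/-- The density of the pair `(z, j)`, weights of power `p`. -/
noncomputable def dens (u : ℝ × ℝ → ℝ) (E : Set (ℝ × ℝ)) (p : ℕ) (z : ℝ × ℝ) (j : ℕ) : ℝ≥0∞ :=
  ⨆ d : ℕ × ℤ × ℤ × ℤ, if d.1 ≤ j ∧ q 0 d.1 z.1 = d.2.1 then
    volume (Et u E d) * 2 ^ d.1 / ENNReal.ofReal ((1 + |u z - d.2.2.1 * 2 ^ d.1| / 2 ^ j +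
      |z.2 - d.2.2.2 - d.2.2.1 * 2 ^ d.1 * z.1|) ^ p) else 0

/-- The density level `ν`. -/
def Pd (u : ℝ × ℝ → ℝ) (E : Set (ℝ × ℝ)) (p n ν : ℕ) (j : ℕ) : Set (ℝ × ℝ) :=
  {z | z ∈ E ∧ j < n ∧ (1 / 2) ^ (ν + 1) < dens u E p z j ∧ dens u E p z j ≤ (1 / 2) ^ ν}

/-- The points of density `≤ 2 ^ (-ν)` at the scale `j`. -/
def Plow (u : ℝ × ℝ → ℝ) (E : Set (ℝ × ℝ)) (p n ν : ℕ) (j : ℕ) : Set (ℝ × ℝ) :=
  {z | z ∈ E ∧ j < n ∧ dens u E p z j ≤ (1 / 2) ^ ν}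

/-- (FD1), free. Levels: `Pd` is a `PSys`, everything is covered, and `DensN` holds with the
exponent `p + 2`. -/
def StFD1 (p : ℕ) : Prop := ∃ C : ℝ, 1 ≤ C ∧ ∀ (u : ℝ × ℝ → ℝ), Field u →
  ∀ E : Set (ℝ × ℝ), MeasurableSet E → (∃ r : ℝ, ∀ z ∈ E, |z.1| ≤ r ∧ |z.2| ≤ r) → ∀ n ν : ℕ,
    PSys n (Pd u E p n ν) ∧ (∀ z ∈ E, ∀ j < n, dens u E p z j ≤ 1) ∧
    (∀ j, MeasurableSet (Plow u E p n ν j)) ∧
    DensN 1 u (Pd u E p n ν) n 0 (p + 2) (C * (1 / 2) ^ ν) ∧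
    DensN 1 u (Plow u E p n ν) n 0 (p + 2) (C * (1 / 2) ^ ν)

/-- The fat tube of height `H` around the line of a top, over its cell, points with slope within
`3 * 2 ^ j`. -/
def Tops.V {κ : Type} (M : Tops κ) (u : ℝ × ℝ → ℝ) (H : ℝ) (m : κ) : Set (ℝ × ℝ) :=
  {z | q 0 (M.j m) z.1 = q 0 (M.j m) (M.x m) ∧ |z.2 - M.line m z.1| ≤ H ∧
    |u z - M.s m| ≤ 3 * 2 ^ M.j m}

/-- (FD2), free. The dense tops of the level `ν`: total length, bounded overlap of the `V`, every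
one contains a thin dense tile, and every pair of `Pd` has a top above it within `S`. -/
def StFD2 (p : ℕ) : Prop := ∃ C : ℝ, 1 ≤ C ∧ ∀ (u : ℝ × ℝ → ℝ), Field u →
  ∀ E : Set (ℝ × ℝ), MeasurableSet E → (∃ r : ℝ, ∀ z ∈ E, |z.1| ≤ r ∧ |z.2| ≤ r) → ∀ n ν : ℕ,
    ∀ (S H : ℝ), 1 ≤ H → 1 ≤ S → (2 : ℝ) ^ (ν + 1) ≤ S ^ p →
    ∃ (κ : Type) (_ : Fintype κ) (M : Tops κ),
      ENNReal.ofReal (∑ m, (1 / 2) ^ M.j m) ≤ ENNReal.ofReal (2 ^ (ν + 1)) * volume E ∧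
      (∀ z, ∀ F : Finset κ, (∀ m ∈ F, z ∈ M.V u H m) → (F.card : ℝ) ≤ C) ∧
      (∀ m, ∃ d : ℕ × ℤ × ℤ × ℤ, d.1 = M.j m ∧ Et u E d ⊆ M.V u H m ∧
        ENNReal.ofReal ((1 / 2) ^ (ν + 1) * (1 / 2) ^ M.j m) ≤ volume (Et u E d)) ∧
      (∀ m, M.j m < n) ∧
      (∀ j, ∀ z ∈ Pd u E p n ν j, ∃ m, M.j m ≤ j ∧ q 0 (M.j m) z.1 = q 0 (M.j m) (M.x m) ∧
        |u z - M.s m| ≤ C * S * 2 ^ j ∧ |z.2 - M.line m z.1| ≤ C * (S + H))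

/-! ### (FT) counting the trees -/

/-- (FT), free. The trees of one subforest: total length. -/
def StFT : Prop := ∃ C : ℝ, 0 < C ∧
  ∀ (u : ℝ × ℝ → ℝ), Field u → ∀ (κ : Type) [Fintype κ] (M : Tops κ) (S H A0 : ℝ),
    1 ≤ S → 1 ≤ H → H ≤ A0 →
    ∀ (ι : Type) [Fintype ι] (τ : ℝ) (top : ι → ℝ × ℝ) (lev : ι → ℕ),
    (∀ i, ∃ m, M.j m ≤ lev i ∧ |(top i).1 - M.x m| ≤ 1 / 2 ^ M.j m ∧
      |u (top i) - M.s m| ≤ S * 2 ^ lev i ∧ |(top i).2 - M.line m (top i).1| ≤ A0) →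
    (∀ i i', i ≠ i' → ¬ Near u τ S (2 * H + 8) (lev i) (top i) (lev i') (top i')) →
    ∑ i, (1 / 2 : ℝ) ^ lev i ≤ C * (S + A0) / H * ∑ m, (1 / 2 : ℝ) ^ M.j m

/-! ### (R0) the uniform restricted bound -/

/-- (R0), the output of (F) + (T) (use `p = 4`, `8 ≤ M`). -/
def StR0 {M : ℕ} (κ : Ker M) : Prop := ∃ C : ℝ, 0 < C ∧ ∀ (u : ℝ × ℝ → ℝ), Field u →
  ∀ (n : ℕ) (g : ℝ × ℝ → ℝ), Nice g → (∀ z, |g z| ≤ 1) →
    ∫ ζ, (∑ j ∈ Finset.range n, κ.S u j g ζ) ^ 2 ≤ C * (volume {z | g z ≠ 0}).toReal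

/-- (R0ν), the output for one density level, with the gain: `P ⊆ Pd`. -/
def StR0ν {M : ℕ} (κ : Ker M) : Prop := ∃ C : ℝ, 0 < C ∧ ∀ (u : ℝ × ℝ → ℝ), Field u →
  ∀ (n ν : ℕ) (g : ℝ × ℝ → ℝ), Nice g → (∀ z, |g z| ≤ 1) →
    ∫ ζ, (κ.FS u g (Pd u {z | g z ≠ 0} 4 n ν) n ζ) ^ 2 ≤
      C * (9 / 10) ^ ν * (volume {z | g z ≠ 0}).toReal

end Vale.Agent.P112.F30
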