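import Vale.Agent.P112.F30.Defs
import Vale.Agent.P112.T.Cor

/-!
# P112, chapter (F): the uniform bounds for every system of pairs

`StR0νP`, `StR0P`: the bounds `StR0ν`, `StR0` for every convex system, not only the full ones.
-/

open MeasureTheory Set
open scoped ENNReal

set_option linter.dupNamespace false

namespace Vale.Agent.P112.F30

open T

variable {M : ℕ}

/-- (R0ν) for every system inside the density level `ν`. -/
def StR0νP (κ : Ker M) : Prop := ∃ C : ℝ, 0 < C ∧ ∀ (u : ℝ × ℝ → ℝ), Field u →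
  ∀ (n ν : ℕ) (g : ℝ × ℝ → ℝ) (P : ℕ → Set (ℝ × ℝ)), Nice g → (∀ z, |g z| ≤ 1) → PSys n P →
    (∀ j, P j ⊆ Pd u {z | g z ≠ 0} 4 n ν j) →
    ∫ ζ, (κ.FS u g P n ζ) ^ 2 ≤ C * (9 / 10) ^ ν * (volume {z | g z ≠ 0}).toReal

/-- (R0) for every system of points of the support of `g`. -/
def StR0P (κ : Ker M) : Prop := ∃ C : ℝ, 0 < C ∧ ∀ (u : ℝ × ℝ → ℝ), Field u →
  ∀ (n : ℕ) (g : ℝ × ℝ → ℝ) (P : ℕ → Set (ℝ × ℝ)), Nice g → (∀ z, |g z| ≤ 1) → PSys n P →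
    (∀ j, P j ⊆ {z | g z ≠ 0}) →
    ∫ ζ, (κ.FS u g P n ζ) ^ 2 ≤ C * (volume {z | g z ≠ 0}).toReal

/-- Intersection of two systems. -/
theorem PSys.inter {n : ℕ} {P Q : ℕ → Set (ℝ × ℝ)} (hP : PSys n P) (hQ : PSys n Q) :
    PSys n fun j => P j ∩ Q j where
  meas j := (hP.meas j).inter (hQ.meas j)
  bdd := by
    obtain ⟨r, hr⟩ := hP.bdd
    exact ⟨r, fun j z hz => hr j z hz.1⟩
  lt j hj := by rw [hP.lt j hj, empty_inter]
  conv z i j k hij hjk hi hk := ⟨hP.conv z i j k hij hjk hi.1 hk.1, hQ.conv z i j k hij hjk hi.2 hk.2⟩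

/-- Weighted Cauchy-Schwarz for a finite sum. -/
theorem int_sq_sum_le (s : Finset ℕ) {F : ℕ → ℝ × ℝ → ℝ} (hF : ∀ i ∈ s, Nice (F i)) {w : ℕ → ℝ}
    (hw : ∀ i ∈ s, 0 < w i) :
    ∫ ζ, (∑ i ∈ s, F i ζ) ^ 2 ≤ (∑ i ∈ s, w i) * ∑ i ∈ s, (∫ ζ, (F i ζ) ^ 2) / w i := by
  rcases s.eq_empty_or_nonempty with rfl | hne
  · simp
  have hW : 0 < ∑ i ∈ s, w i := Finset.sum_pos hw hne
  have h2 : ∀ i ∈ s, Nice fun ζ => (w i)⁻¹ * F i ζ ^ 2 := fun i hi => (hF i hi).sq.const_mul _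
  calc ∫ ζ, (∑ i ∈ s, F i ζ) ^ 2
      ≤ ∫ ζ, (∑ i ∈ s, w i) * ∑ i ∈ s, (w i)⁻¹ * (F i ζ) ^ 2 := by
        refine integral_mono (Nice.sum s hF).sq.integrable
          ((Nice.sum s h2).const_mul _).integrable fun ζ => ?_
        have h3 := Finset.sq_sum_div_le_sum_sq_div s (fun i => F i ζ) hw
        rw [div_le_iff₀ hW, mul_comm] at h3
        refine h3.trans (le_of_eq ?_)
        congr 1
        exact Finset.sum_congr rfl fun i _ => by rw [div_eq_inv_mul]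
    _ = _ := by
        rw [integral_const_mul, integral_finsetSum _ fun i hi => (h2 i hi).integrable]
        congr 1
        refine Finset.sum_congr rfl fun i _ => ?_
        rw [integral_const_mul, div_eq_inv_mul]

end Vale.Agent.P112.F30
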