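import Vale.Agent.P112.F30.FF2
import Vale.Agent.P112.G.R2

/-!
# (FF0) part 1: decompositions into weakly separated families; the non jump pairs of one class
-/

open MeasureTheory Set
open scoped ENNReal

set_option linter.dupNamespace false

namespace Vale.Agent.P112.F30

open T H8 R2

/-- `P` is the disjoint union of at most `N` weakly separated families. -/
def Dec (u : ℝ × ℝ → ℝ) (P : ℕ → Set (ℝ × ℝ)) (lo hi h D : ℝ) (N : ℕ) : Prop :=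
  ∃ (I : Type) (_ : Fintype I) (F : I → Tr) (G : ∀ k, Cells (F k)) (a : I → ℝ),
    Fintype.card I ≤ N ∧ (∀ k, lo ≤ a k ∧ a k ≤ hi) ∧ (∀ k, (F k).Ok u P (a k) h) ∧
    (∀ k, (G k).Marg) ∧ (∀ k, (G k).Sep0 u (a k) D) ∧
    ∀ j z, (P j).indicator (1 : ℝ × ℝ → ℝ) z =
      ∑ k, ∑ i, ((F k).E i j).indicator (1 : ℝ × ℝ → ℝ) z

theorem Dec.sigma {X : Type} [Fintype X] {u : ℝ × ℝ → ℝ} {P : ℕ → Set (ℝ × ℝ)}
    {Px : X → ℕ → Set (ℝ × ℝ)} {lo hi h D : ℝ} {N : ℕ} (hx : ∀ x, Dec u (Px x) lo hi h D N)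
    (hsub : ∀ x j, Px x j ⊆ P j)
    (hP : ∀ j z, (P j).indicator (1 : ℝ × ℝ → ℝ) z =
      ∑ x, (Px x j).indicator (1 : ℝ × ℝ → ℝ) z) :
    Dec u P lo hi h D (Fintype.card X * N) := by
  choose I fI F G a h1 h2 h3 h4 h5 h6 using hx
  refine ⟨Σ x, I x, inferInstance, fun k => F k.1 k.2, fun k => G k.1 k.2, fun k => a k.1 k.2,
    ?_, fun k => h2 k.1 k.2, fun k => ?_, fun k => h4 k.1 k.2, fun k => h5 k.1 k.2, ?_⟩
  · rw [Fintype.card_sigma]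
    calc ∑ x, Fintype.card (I x) ≤ ∑ _x : X, N := Finset.sum_le_sum fun x _ => h1 x
      _ = Fintype.card X * N := by simp
  · have := h3 k.1 k.2
    exact ⟨this.meas, fun i j => (this.sub i j).trans (hsub _ _), this.slope, this.line,
      this.conv, this.uniq⟩
  · intro j z
    rw [hP j z, Fintype.sum_sigma]
    exact Finset.sum_congr rfl fun x _ => h6 x j z

/-- the top `(lev, U)` is available for the pair `(z, j)` in the window `b` -/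
def AvM (u : ℝ × ℝ → ℝ) (τ ω a : ℝ) (b : ℤ) (lev : ℕ) (U : ℝ × ℝ) (j : ℕ) (z : ℝ × ℝ) : Prop :=
  lev + 8 ≤ j ∧ |u z - u U| ≤ a * 2 ^ j ∧ b * ω ≤ z.2 - ln u U z.1 ∧
    z.2 - ln u U z.1 < (b + 1) * ω ∧
    q τ lev (z.1 - 16 / 2 ^ j) = q τ lev U.1 ∧ q τ lev (z.1 + 16 / 2 ^ j) = q τ lev U.1

theorem AvM.inside {u : ℝ × ℝ → ℝ} {τ ω a : ℝ} {b : ℤ} {lev : ℕ} {U : ℝ × ℝ} {j : ℕ} {z : ℝ × ℝ}
    (h : AvM u τ ω a b lev U j z) {x : ℝ} (hx : |x - z.1| ≤ 16 / 2 ^ j) :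
    q τ lev x = q τ lev U.1 := by
  obtain ⟨h1, h2⟩ := abs_le.1 hx
  exact q_between h.2.2.2.2.1 h.2.2.2.2.2 (by linarith) (by linarith)

theorem AvM.cell {u : ℝ × ℝ → ℝ} {τ ω a : ℝ} {b : ℤ} {lev : ℕ} {U : ℝ × ℝ} {j : ℕ} {z : ℝ × ℝ}
    (h : AvM u τ ω a b lev U j z) : q τ lev z.1 = q τ lev U.1 :=
  h.inside (by rw [sub_self, abs_zero]; positivity)

theorem AvM.mono {u : ℝ × ℝ → ℝ} {τ ω a : ℝ} (ha : 0 ≤ a) {b : ℤ} {lev : ℕ} {U : ℝ × ℝ}
    {j j' : ℕ} {z : ℝ × ℝ} (h : AvM u τ ω a b lev U j z) (hj : j ≤ j') :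
    AvM u τ ω a b lev U j' z := by
  have hp : (0 : ℝ) < 2 ^ j := by positivity
  have hpp : (2 : ℝ) ^ j ≤ 2 ^ j' := pow_le_pow_right₀ (by norm_num) hj
  have hr : 16 / (2 ^ j' : ℝ) ≤ 16 / 2 ^ j := by gcongr
  have hr0 : 0 < 16 / (2 ^ j' : ℝ) := by positivity
  refine ⟨h.1.trans hj, h.2.1.trans (mul_le_mul_of_nonneg_left hpp ha), h.2.2.1, h.2.2.2.1,
    ?_, ?_⟩
  · apply h.inside
    rw [abs_le]; constructor <;> linarith
  · apply h.inside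
    rw [abs_le]; constructor <;> linarith

theorem AvM.meas {u : ℝ × ℝ → ℝ} (hu : Measurable u) (τ ω a : ℝ) (b : ℤ) (lev : ℕ) (U : ℝ × ℝ)
    (j : ℕ) : MeasurableSet {z | AvM u τ ω a b lev U j z} := by
  have e : {z | AvM u τ ω a b lev U j z} = {z : ℝ × ℝ | lev + 8 ≤ j} ∩
      ({z | |u z - u U| ≤ a * 2 ^ j} ∩
      ({z | b * ω ≤ z.2 - ln u U z.1} ∩ ({z | z.2 - ln u U z.1 < (b + 1) * ω} ∩
      ({z | q τ lev (z.1 - 16 / 2 ^ j) = q τ lev U.1} ∩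
      {z | q τ lev (z.1 + 16 / 2 ^ j) = q τ lev U.1})))) := by
    ext z; simp [AvM]
  rw [e]
  have hl := ln_meas (u := u) U
  refine MeasurableSet.inter (MeasurableSet.const _) (MeasurableSet.inter ?_
    (MeasurableSet.inter ?_ (MeasurableSet.inter ?_ (MeasurableSet.inter ?_ ?_))))
  · exact measurableSet_le (by fun_prop) measurable_const
  · exact measurableSet_le measurable_const (measurable_snd.sub hl)
  · exact measurableSet_lt (measurable_snd.sub hl) measurable_const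
  · exact ((q_meas τ lev).comp (by fun_prop : Measurable fun z : ℝ × ℝ => z.1 - 16 / 2 ^ j))
      (measurableSet_singleton _)
  · exact ((q_meas τ lev).comp (by fun_prop : Measurable fun z : ℝ × ℝ => z.1 + 16 / 2 ^ j))
      (measurableSet_singleton _)

/-- two available tops of the same window coincide -/
theorem avM_unique {u : ℝ × ℝ → ℝ} {C : ℕ → Set (ℝ × ℝ)} {S D D' τ ω a : ℝ} (haS : a ≤ S / 2)
    (hωD : ω ≤ 2 * D + 8)
    (hCT : CT u C S D') {F : Finset (ℕ × ℤ × ℤ × ℤ)} {wt : ℕ × ℤ × ℤ × ℤ → ℝ × ℝ}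
    (hF : TopSel u C S D τ F wt) {b : ℤ} (hω : 0 ≤ ω) (hb : |(b : ℝ)| * ω + ω ≤ D')
    {j : ℕ} {z : ℝ × ℝ} (hz : z ∈ C j) {t t' : ℕ × ℤ × ℤ × ℤ} (ht : t ∈ F) (ht' : t' ∈ F)
    (h : AvM u τ ω a b t.1 (wt t) j z) (h' : AvM u τ ω a b t'.1 (wt t') j z) : t = t' := by
  by_contra hne
  apply hF.nn t ht t' ht' hne
  have hp : (0 : ℝ) < 2 ^ j := by positivity
  have hoff : ∀ {s : ℕ × ℤ × ℤ × ℤ}, AvM u τ ω a b s.1 (wt s) j z →
      |z.2 - ln u (wt s) z.1| ≤ D' := by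
    intro s hs
    have h1 : |(b : ℝ)| * ω = |(b : ℝ) * ω| := by rw [abs_mul, abs_of_nonneg hω]
    obtain ⟨b1, b2⟩ := abs_le.1 (le_refl |(b : ℝ) * ω|)
    rw [abs_le]
    constructor
    · linarith [hs.2.2.1]
    · linarith [hs.2.2.2.1]
  have hx : ∀ {s : ℕ × ℤ × ℤ × ℤ}, AvM u τ ω a b s.1 (wt s) j z →
      |z.1 - (wt s).1| ≤ 2 / 2 ^ s.1 := by
    intro s hs
    refine (q_close hs.cell).trans ?_
    gcongr
    norm_num
  have hsl : a * 2 ^ j ≤ S / 2 * 2 ^ j := mul_le_mul_of_nonneg_right haS hp.le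
  refine ⟨hCT j t.1 t'.1 z (wt t) (wt t') hz (hF.mem t ht) (hF.mem t' ht')
    (by have := h.1; omega) (by have := h'.1; omega)
    (h.2.1.trans hsl) (h'.2.1.trans hsl) (hx h) (hx h') (hoff h) (hoff h'),
    z.1, h.cell, h'.cell, ?_⟩
  rw [abs_le]
  constructor
  · linarith [h.2.2.1, h.2.2.2.1, h'.2.2.1, h'.2.2.2.1]
  · linarith [h.2.2.1, h.2.2.2.1, h'.2.2.1, h'.2.2.2.1]

/-- weak separation, source form -/
theorem avM_sep {u : ℝ × ℝ → ℝ} {C : ℕ → Set (ℝ × ℝ)} {S D D' τ ω a : ℝ} (ha : 0 ≤ a)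
    (ha60 : 60 * a ≤ S / 2)
    (hCT : CT u C S D') {F : Finset (ℕ × ℤ × ℤ × ℤ)} {wt : ℕ × ℤ × ℤ × ℤ → ℝ × ℝ}
    (hF : TopSel u C S D τ F wt) {b : ℤ} (hω : 0 ≤ ω) (hD : 0 ≤ D) (hωD : ω ≤ D)
    (hb : |(b : ℝ)| * ω + ω + D ≤ D')
    {j : ℕ} {z : ℝ × ℝ} (hz : z ∈ C j) {t t' : ℕ × ℤ × ℤ × ℤ} (ht : t ∈ F) (ht' : t' ∈ F)
    (hne : t ≠ t') (h : AvM u τ ω a b t.1 (wt t) j z) (hlev : t'.1 ≤ j)
    (hcell : q τ t'.1 z.1 = q τ t'.1 (wt t').1)
    (hoff : |z.2 - (ln u (wt t') 0 + (b + 1 / 2) * ω + u (wt t') * z.1)| ≤ D) :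
    60 * a * 2 ^ j ≤ |u z - u (wt t')| := by
  by_contra hlt
  push Not at hlt
  apply hF.nn t ht t' ht' hne
  have hp : (0 : ℝ) < 2 ^ j := by positivity
  have h1 : |(b : ℝ)| * ω = |(b : ℝ) * ω| := by rw [abs_mul, abs_of_nonneg hω]
  obtain ⟨f1, f2⟩ := abs_le.1 (le_refl |(b : ℝ) * ω|)
  have e' : ln u (wt t') 0 + (b + 1 / 2) * ω + u (wt t') * z.1 =
      ln u (wt t') z.1 + (b + 1 / 2) * ω := by unfold ln; ring
  rw [e'] at hoff
  obtain ⟨o1, o2⟩ := abs_le.1 hoff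
  have g1 := h.2.2.1
  have g2 := h.2.2.2.1
  have hlt2 : |u z - u (wt t')| ≤ S / 2 * 2 ^ j :=
    hlt.le.trans (mul_le_mul_of_nonneg_right ha60 hp.le)
  have ha2 : |u z - u (wt t)| ≤ S / 2 * 2 ^ j := by
    refine h.2.1.trans (mul_le_mul_of_nonneg_right ?_ hp.le)
    linarith
  have hslope : |u (wt t) - u (wt t')| ≤ 2 * S * 2 ^ max t.1 t'.1 := by
    rcases lt_or_eq_of_le hlev with hl | hl
    · refine hCT j t.1 t'.1 z (wt t) (wt t') hz (hF.mem t ht) (hF.mem t' ht')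
        (by have := h.1; omega) hl ha2 hlt2 ?_ ?_ ?_ ?_
      · refine (q_close h.cell).trans ?_
        gcongr
        norm_num
      · refine (q_close hcell).trans ?_
        gcongr
        norm_num
      · rw [abs_le]
        constructor <;> linarith
      · rw [abs_le]
        constructor <;> linarith
    · have hmax : max t.1 t'.1 = j := by
        have := h.1
        omega
      rw [hmax]
      have e : u (wt t) - u (wt t') = (u z - u (wt t')) - (u z - u (wt t)) := by ring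
      have hS : 0 ≤ S := by linarith
      rw [e]
      calc |(u z - u (wt t')) - (u z - u (wt t))| ≤ |u z - u (wt t')| + |u z - u (wt t)| :=
            abs_sub _ _
        _ ≤ S / 2 * 2 ^ j + S / 2 * 2 ^ j := add_le_add hlt2 ha2
        _ ≤ 2 * S * 2 ^ j := by nlinarith
  refine ⟨hslope, z.1, h.cell, hcell, ?_⟩
  rw [abs_le]
  constructor <;> linarith

end Vale.Agent.P112.F30
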