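import Vale.Agent.P112.F30.FF2

/-!
# (FF) part 3: the theorem
-/

open MeasureTheory Set
open scoped ENNReal

set_option linter.dupNamespace false

namespace Vale.Agent.P112.F30

open T H8

/-- grid of the subforest `k` -/
noncomputable def τk (k : ℕ) : ℝ := if k % 2 = 0 then 0 else 1 / 3

/-- window of the subforest `k` -/
def bk (B0 k : ℕ) : ℤ := ((k / 2 : ℕ) : ℤ) - B0

/-- some top is available for `(z, j)` in the subforest `k` -/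
def AvK (u : ℝ × ℝ → ℝ) (H : ℝ) (B0 : ℕ) (F : ℝ → Finset (ℕ × ℤ × ℤ × ℤ))
    (wt : ℝ → ℕ × ℤ × ℤ × ℤ → ℝ × ℝ) (k j : ℕ) (z : ℝ × ℝ) : Prop :=
  ∃ t ∈ F (τk k), Av' u (τk k) H (bk B0 k) t.1 (wt (τk k) t) j z

/-- the tree sets -/
def EE (u : ℝ × ℝ → ℝ) (P : ℕ → Set (ℝ × ℝ)) (H : ℝ) (L B0 : ℕ)
    (F : ℝ → Finset (ℕ × ℤ × ℤ × ℤ)) (wt : ℝ → ℕ × ℤ × ℤ × ℤ → ℝ × ℝ) (k : ℕ)
    (t : ℕ × ℤ × ℤ × ℤ) (j : ℕ) : Set (ℝ × ℝ) :=
  {z | z ∈ P j ∧ z ∈ P (j + L) ∧ Av' u (τk k) H (bk B0 k) t.1 (wt (τk k) t) j z ∧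
    ∀ k' < k, ¬ AvK u H B0 F wt k' j z}

theorem AvK.mono {u : ℝ × ℝ → ℝ} {H : ℝ} {B0 : ℕ} {F : ℝ → Finset (ℕ × ℤ × ℤ × ℤ)}
    {wt : ℝ → ℕ × ℤ × ℤ × ℤ → ℝ × ℝ} {k j j' : ℕ} {z : ℝ × ℝ} (h : AvK u H B0 F wt k j z)
    (hj : j ≤ j') : AvK u H B0 F wt k j' z := by
  obtain ⟨t, ht, h⟩ := h
  exact ⟨t, ht, h.mono hj⟩

theorem AvK.meas {u : ℝ × ℝ → ℝ} (hu : Measurable u) (H : ℝ) (B0 : ℕ)
    (F : ℝ → Finset (ℕ × ℤ × ℤ × ℤ)) (wt : ℝ → ℕ × ℤ × ℤ × ℤ → ℝ × ℝ) (k j : ℕ) :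
    MeasurableSet {z | AvK u H B0 F wt k j z} := by
  have e : {z | AvK u H B0 F wt k j z} =
      ⋃ t ∈ F (τk k), {z | Av' u (τk k) H (bk B0 k) t.1 (wt (τk k) t) j z} := by
    ext z; simp [AvK]
  rw [e]
  exact Finset.measurableSet_biUnion _ fun t _ => Av'.meas hu _ _ _ _ _ _

theorem EE.meas {u : ℝ × ℝ → ℝ} (hu : Measurable u) {P : ℕ → Set (ℝ × ℝ)}
    (hP : ∀ j, MeasurableSet (P j)) (H : ℝ) (L B0 : ℕ)
    (F : ℝ → Finset (ℕ × ℤ × ℤ × ℤ)) (wt : ℝ → ℕ × ℤ × ℤ × ℤ → ℝ × ℝ) (k : ℕ)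
    (t : ℕ × ℤ × ℤ × ℤ) (j : ℕ) : MeasurableSet (EE u P H L B0 F wt k t j) := by
  have e : EE u P H L B0 F wt k t j = P j ∩ (P (j + L) ∩
      ({z | Av' u (τk k) H (bk B0 k) t.1 (wt (τk k) t) j z} ∩
        ⋂ k' : ℕ, ⋂ _ : k' < k, {z | AvK u H B0 F wt k' j z}ᶜ)) := by
    ext z
    simp only [EE, mem_inter_iff, mem_iInter, mem_compl_iff, mem_ofPred_eq]
  rw [e]
  refine (hP j).inter ((hP _).inter ((Av'.meas hu _ _ _ _ _ _).inter ?_))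
  exact MeasurableSet.iInter fun k' => MeasurableSet.iInter fun _ =>
    (AvK.meas hu H B0 F wt k' j).compl

theorem not_inside_grid {τ : ℝ} {a j : ℕ} {x : ℝ} {m : ℤ} (hx : q τ a x = m)
    (h : ¬ (q τ a (x - 1 / (8 * 2 ^ j)) = m ∧ q τ a (x + 1 / (8 * 2 ^ j)) = m)) :
    ∃ k : ℤ, |x - (τ + k / 2 ^ a)| ≤ 1 / (8 * 2 ^ j) := by
  have hr : (0 : ℝ) < 1 / (8 * 2 ^ j) := by positivity
  rw [not_and_or] at h
  rcases h with h | h
  · obtain ⟨k, h1, h2⟩ := exists_grid_point (τ := τ) (i := a) (x := x - 1 / (8 * 2 ^ j)) (y := x)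
      (by linarith) (by rw [hx]; exact h)
    exact ⟨k, by rw [abs_le]; constructor <;> linarith⟩
  · obtain ⟨k, h1, h2⟩ := exists_grid_point (τ := τ) (i := a) (x := x) (y := x + 1 / (8 * 2 ^ j))
      (by linarith) (by rw [hx]; exact fun hc => h hc.symm)
    exact ⟨k, by rw [abs_le]; constructor <;> linarith⟩

/-- every good pair is available somewhere -/
theorem exists_avail {u : ℝ × ℝ → ℝ} {P : ℕ → Set (ℝ × ℝ)} {S H : ℝ} (hS : 2 ≤ S) (hH : 1 ≤ H)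
    {l B0 : ℕ} (hl : 8 * S ≤ 2 ^ l) (hB0 : 2 * H + 2 * S + 10 ≤ B0 * H)
    {F : ℝ → Finset (ℕ × ℤ × ℤ × ℤ)} {wt : ℝ → ℕ × ℤ × ℤ × ℤ → ℝ × ℝ}
    (hF : ∀ τ, TopSel u P S H τ (F τ) (wt τ)) {j : ℕ} {z : ℝ × ℝ} (hlj : l ≤ j)
    (hz : z ∈ P (j - l)) : ∃ k < 2 * (2 * B0 + 1), AvK u H B0 F wt k j z := by
  have hl4 : 1 ≤ l := by
    rcases Nat.eq_zero_or_pos l with h0 | h0
    · rw [h0] at hl; norm_num at hl; linarith
    · exact h0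
  obtain ⟨t0, ht0, hl0, hq0, hs0, ho0⟩ := (hF 0).dom (j - l) z hz
  obtain ⟨t1, ht1, hl1, hq1, hs1, ho1⟩ := (hF (1 / 3)).dom (j - l) z hz
  have hpow : (2 : ℝ) ^ j = 2 ^ (j - l) * 2 ^ l := by
    rw [← pow_add]; congr 1; omega
  have hp : (0 : ℝ) < 2 ^ (j - l) := by positivity
  -- a generic conclusion
  have key : ∀ (e : ℕ) (he : e < 2) (t : ℕ × ℤ × ℤ × ℤ), t ∈ F (τk e) → t.1 ≤ j - l →
      |u z - u (wt (τk e) t)| ≤ (2 * S + 1) * 2 ^ (j - l) →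
      |z.2 - ln u (wt (τk e) t) z.1| ≤ 2 * H + 2 * S + 10 →
      q (τk e) t.1 (z.1 - 1 / (8 * 2 ^ j)) = q (τk e) t.1 (wt (τk e) t).1 →
      q (τk e) t.1 (z.1 + 1 / (8 * 2 ^ j)) = q (τk e) t.1 (wt (τk e) t).1 →
      ∃ k < 2 * (2 * B0 + 1), AvK u H B0 F wt k j z := by
    intro e he t ht hlev hs ho hi1 hi2
    have hHp : 0 < H := by linarith
    set y : ℝ := (z.2 - ln u (wt (τk e) t) z.1) / H with hy
    have hyH : y * H = z.2 - ln u (wt (τk e) t) z.1 := by rw [hy]; field_simp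
    have hyb : |y| ≤ B0 := by
      rw [hy, abs_div, abs_of_pos hHp, div_le_iff₀ hHp]
      exact ho.trans hB0
    obtain ⟨y1, y2⟩ := abs_le.1 hyb
    have f1 := Int.floor_le y
    have f2 := Int.lt_floor_add_one y
    have hb2 : ((⌊y⌋ : ℤ) : ℝ) ≤ (B0 : ℤ) := by push_cast; linarith
    have hb1' : -(B0 : ℤ) ≤ ⌊y⌋ := by
      rw [Int.le_floor]; push_cast; exact y1
    have hb2' : ⌊y⌋ ≤ (B0 : ℤ) := by exact_mod_cast hb2
    obtain ⟨c, hc⟩ : ∃ c : ℕ, (c : ℤ) = ⌊y⌋ + B0 := ⟨(⌊y⌋ + B0).toNat, by omega⟩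
    have hc2 : c ≤ 2 * B0 := by omega
    set k := 2 * c + e with hk
    have hmod : k % 2 = e := by omega
    have hdiv : k / 2 = c := by omega
    have hτ : τk k = τk e := by
      unfold τk
      rw [hmod, Nat.mod_eq_of_lt he]
    have hbk : bk B0 k = ⌊y⌋ := by
      unfold bk
      rw [hdiv, hc]; ring
    refine ⟨k, by omega, t, by rw [hτ]; exact ht, ?_⟩
    rw [hτ, hbk]
    refine ⟨by omega, hs.trans ?_, ?_, ?_, hi1, hi2⟩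
    · rw [hpow]; nlinarith
    · rw [← hyH]; exact mul_le_mul_of_nonneg_right f1 hHp.le
    · rw [← hyH]; exact mul_lt_mul_of_pos_right f2 hHp
  by_cases h0 : q 0 t0.1 (z.1 - 1 / (8 * 2 ^ j)) = q 0 t0.1 (wt 0 t0).1 ∧
      q 0 t0.1 (z.1 + 1 / (8 * 2 ^ j)) = q 0 t0.1 (wt 0 t0).1
  · have e0 : τk 0 = 0 := by simp [τk]
    exact key 0 (by norm_num) t0 (by rw [e0]; exact ht0) hl0 (by rw [e0]; exact hs0)
      (by rw [e0]; exact ho0) (by rw [e0]; exact h0.1) (by rw [e0]; exact h0.2)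
  by_cases h1 : q (1 / 3) t1.1 (z.1 - 1 / (8 * 2 ^ j)) = q (1 / 3) t1.1 (wt (1 / 3) t1).1 ∧
      q (1 / 3) t1.1 (z.1 + 1 / (8 * 2 ^ j)) = q (1 / 3) t1.1 (wt (1 / 3) t1).1
  · have e1 : τk 1 = 1 / 3 := by simp [τk]
    exact key 1 (by norm_num) t1 (by rw [e1]; exact ht1) hl1 (by rw [e1]; exact hs1)
      (by rw [e1]; exact ho1) (by rw [e1]; exact h1.1) (by rw [e1]; exact h1.2)
  exfalso
  obtain ⟨k, hk⟩ := not_inside_grid hq0 h0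
  obtain ⟨k', hk'⟩ := not_inside_grid hq1 h1
  refine two_grids (a := t0.1) (b := t1.1) (j := j) (by omega) (by omega) k k' ?_
  calc |(k : ℝ) / 2 ^ t0.1 - (1 / 3 + (k' : ℝ) / 2 ^ t1.1)|
      = |(z.1 - (1 / 3 + (k' : ℝ) / 2 ^ t1.1)) - (z.1 - (0 + (k : ℝ) / 2 ^ t0.1))| := by
        congr 1; ring
    _ ≤ |z.1 - (1 / 3 + (k' : ℝ) / 2 ^ t1.1)| + |z.1 - (0 + (k : ℝ) / 2 ^ t0.1)| := abs_sub _ _
    _ ≤ 1 / (8 * 2 ^ j) + 1 / (8 * 2 ^ j) := add_le_add hk' hk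
    _ = 1 / (4 * 2 ^ j) := by
        have : (0 : ℝ) < 2 ^ j := by positivity
        field_simp
        norm_num

theorem bk_bound {B0 k : ℕ} (hk : k < 2 * (2 * B0 + 1)) : |((bk B0 k : ℤ) : ℝ)| ≤ B0 := by
  have h1 : -(B0 : ℤ) ≤ bk B0 k := by unfold bk; omega
  have h2 : bk B0 k ≤ (B0 : ℤ) := by unfold bk; omega
  have h1' : (-(B0 : ℤ) : ℝ) ≤ bk B0 k := by exact_mod_cast h1
  have h2' : ((bk B0 k : ℤ) : ℝ) ≤ (B0 : ℤ) := by exact_mod_cast h2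
  rw [abs_le]
  constructor
  · push_cast at h1'; exact h1'
  · push_cast at h2'; exact h2'

/-- **(FF)** -/
theorem stFF : StFF := by
  refine ⟨40, by norm_num, ?_⟩
  intro u hu n P S H Q D l L hS hH hQ hP hCT hD hl hL hL4
  have hH0 : (0 : ℝ) < H := by linarith
  have hsel : ∀ τ : ℝ, ∃ F wt, TopSel u P S H τ F wt := fun τ =>
    exists_topSel hu hP (by linarith) hH0.le τ
  choose F wt hF using hsel
  obtain ⟨B0, hB0def⟩ : ∃ B0 : ℕ, B0 = ⌈(2 * H + 2 * S + 10) / H⌉₊ := ⟨_, rfl⟩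
  have hB0a : 2 * H + 2 * S + 10 ≤ B0 * H := by
    have := Nat.le_ceil ((2 * H + 2 * S + 10) / H)
    rw [← hB0def, div_le_iff₀ hH0] at this
    exact this
  have hB0b : (B0 : ℝ) * H ≤ 3 * H + 2 * S + 10 := by
    have := Nat.ceil_lt_add_one (by positivity : 0 ≤ (2 * H + 2 * S + 10) / H)
    rw [← hB0def] at this
    have h2 : (B0 : ℝ) * H ≤ ((2 * H + 2 * S + 10) / H + 1) * H :=
      mul_le_mul_of_nonneg_right this.le hH0.le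
    have h3 : ((2 * H + 2 * S + 10) / H + 1) * H = 3 * H + 2 * S + 10 := by
      field_simp; ring
    linarith
  have hB0c : (B0 : ℝ) ≤ 2 * S + 13 := by
    have h1 : (B0 : ℝ) * H ≤ (2 * S + 13) * H := by nlinarith
    exact le_of_mul_le_mul_right h1 hH0
  set K := 2 * (2 * B0 + 1) with hK
  have hbD : ∀ k < K, |((bk B0 k : ℤ) : ℝ) * H| + 2 * H + Q + 4 ≤ D := by
    intro k hk
    have h1 := bk_bound (B0 := B0) hk
    have h2 : |((bk B0 k : ℤ) : ℝ) * H| ≤ B0 * H := by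
      rw [abs_mul, abs_of_pos hH0]
      gcongr
    linarith
  have hbD' : ∀ k < K, |((bk B0 k : ℤ) : ℝ) * H| + H ≤ D := by
    intro k hk
    have := hbD k hk
    linarith
  refine ⟨K, fun k => {t // t ∈ F (τk k)}, fun k => inferInstance, fun k => τk k,
    fun k => ((bk B0 k : ℤ) + 1 / 2) * H, fun k t => wt (τk k) t.1, fun k t => t.1.1,
    fun k t j => EE u P H L B0 F wt k t.1 j, ?_, ?_⟩
  · rw [hK]
    push_cast
    linarith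
  refine ⟨?_, ?_, ?_, ?_, ?_, ?_, ?_, ?_, ?_⟩
  · -- forest
    rintro ⟨k, hk⟩
    have hHw : (0 : ℝ) < H := hH0
    refine ⟨fun t j => EE.meas hu.meas hP.meas H L B0 F wt k t.1 j, ?_, ?_, ?_, ?_, ?_, ?_, ?_⟩
    · rintro ⟨t, ht⟩ j _ z hz
      have := hz.2.2.1.2.1
      simpa using this
    · rintro ⟨t, ht⟩ j _ z hz
      exact hz.2.2.1.1.le
    · rintro ⟨t, ht⟩ j _ z hz
      have h1 := hz.2.2.1.2.2.1
      have h2 := hz.2.2.1.2.2.2.1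
      have e : z.2 - (ln u (wt (τk k) t) 0 + ((bk B0 k : ℤ) + 1 / 2) * H) -
          u (wt (τk k) t) * z.1 = z.2 - ln u (wt (τk k) t) z.1 - ((bk B0 k : ℤ) + 1 / 2) * H := by
        unfold ln; ring
      show |z.2 - (ln u (wt (τk k) t) 0 + ((bk B0 k : ℤ) + 1 / 2) * H) -
        u (wt (τk k) t) * z.1| ≤ H
      rw [e, abs_le]
      constructor <;> linarith
    · rintro ⟨t, ht⟩ j _ z hz x hx
      exact hz.2.2.1.inside hx
    · rintro ⟨t, ht⟩ z j k' l' hjk hkl _ hz hz'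
      refine ⟨hP.conv z j k' l' hjk hkl hz.1 hz'.1,
        hP.conv z (j + L) (k' + L) (l' + L) (by omega) (by omega) hz.2.1 hz'.2.1,
        hz.2.2.1.mono hjk, fun k'' hk'' hav => hz'.2.2.2 k'' hk'' (hav.mono hkl)⟩
    · rintro ⟨t, ht⟩ ⟨t', ht'⟩ hne j
      rw [Set.disjoint_left]
      intro z hz hz'
      apply hne
      have := av_unique hS hH hCT (hF (τk k)) (hbD' k hk) hz.1 ht ht' hz.2.2.1 hz'.2.2.1
      exact Subtype.ext this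
    · rintro ⟨t, ht⟩ ⟨t', ht'⟩ hne j _ hlev z hz ⟨ζ, hζ, h1, h2⟩
      exact av_sep hS hH hQ hL hCT (hF (τk k)) (hbD k hk) hz.2.1 ht ht'
        (fun h => hne (Subtype.ext h)) hz.2.2.1 hlev hζ h1 h2
  · intro k t j z hz
    exact hz.1
  · -- cover
    intro j z hz
    obtain ⟨hzj, hlj, hzl, hzL⟩ := hz
    have hex := exists_avail hS hH hl hB0a hF hlj hzl
    classical
    let k := Nat.find hex
    obtain ⟨hkK, t, ht, hav⟩ : k < K ∧ AvK u H B0 F wt k j z := Nat.find_spec hex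
    refine ⟨⟨k, hkK⟩, ⟨t, ht⟩, hzj, hzL, hav, ?_⟩
    intro k' hk' hav'
    exact Nat.find_min hex hk' ⟨lt_trans hk' hkK, hav'⟩
  · -- uniq
    rintro j z ⟨k, hk⟩ ⟨t, ht⟩ ⟨k', hk'⟩ ⟨t', ht'⟩ hz hz'
    rcases lt_trichotomy k k' with h | h | h
    · exact absurd ⟨t, ht, hz.2.2.1⟩ (hz'.2.2.2 k h)
    · exact Fin.ext h
    · exact absurd ⟨t', ht', hz'.2.2.1⟩ (hz.2.2.2 k' h)
  · -- uniq_top
    rintro ⟨k, hk⟩ ⟨t, ht⟩ ⟨t', ht'⟩ j j' z hz hz'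
    apply Subtype.ext
    rcases le_total j j' with h | h
    · exact av_unique hS hH hCT (hF (τk k)) (hbD' k hk) hz'.1 ht ht' (hz.2.2.1.mono h) hz'.2.2.1
    · exact av_unique hS hH hCT (hF (τk k)) (hbD' k hk) hz.1 ht ht' hz.2.2.1 (hz'.2.2.1.mono h)
  · rintro k ⟨t, ht⟩ j ⟨z, hz⟩
    exact hz.2.2.1.1
  · rintro k ⟨t, ht⟩
    exact (hF (τk k)).mem t ht
  · rintro k ⟨t, ht⟩ ⟨t', ht'⟩ hne
    exact (hF (τk k)).nn t ht t' ht' (fun h => hne (Subtype.ext h))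
  · intro k
    show τk k = 0 ∨ τk k = 1 / 3
    unfold τk
    split_ifs <;> simp

end Vale.Agent.P112.F30
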