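import Vale.Agent.P112.F30.FF0a
import Vale.Agent.P112.F30.FF3

/-!
# (FF0) part 2: the non jump pairs of one class
-/

open MeasureTheory Set
open scoped ENNReal

set_option linter.dupNamespace false

namespace Vale.Agent.P112.F30

open T H8 R2

/-- some top is available for `(z, j)` in the subfamily `k` -/
def AvMK (u : ℝ × ℝ → ℝ) (ω a : ℝ) (B0 : ℕ) (F : ℝ → Finset (ℕ × ℤ × ℤ × ℤ))
    (wt : ℝ → ℕ × ℤ × ℤ × ℤ → ℝ × ℝ) (k j : ℕ) (z : ℝ × ℝ) : Prop :=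
  ∃ t ∈ F (τk k), AvM u (τk k) ω a (bk B0 k) t.1 (wt (τk k) t) j z

/-- the tree sets -/
def EM (u : ℝ × ℝ → ℝ) (P : ℕ → Set (ℝ × ℝ)) (ω a : ℝ) (B0 : ℕ)
    (F : ℝ → Finset (ℕ × ℤ × ℤ × ℤ)) (wt : ℝ → ℕ × ℤ × ℤ × ℤ → ℝ × ℝ) (k : ℕ)
    (t : ℕ × ℤ × ℤ × ℤ) (j : ℕ) : Set (ℝ × ℝ) :=
  {z | z ∈ P j ∧ AvM u (τk k) ω a (bk B0 k) t.1 (wt (τk k) t) j z ∧
    ∀ k' < k, ¬ AvMK u ω a B0 F wt k' j z}

theorem AvMK.mono {u : ℝ × ℝ → ℝ} {ω a : ℝ} (ha : 0 ≤ a) {B0 : ℕ}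
    {F : ℝ → Finset (ℕ × ℤ × ℤ × ℤ)}
    {wt : ℝ → ℕ × ℤ × ℤ × ℤ → ℝ × ℝ} {k j j' : ℕ} {z : ℝ × ℝ} (h : AvMK u ω a B0 F wt k j z)
    (hj : j ≤ j') : AvMK u ω a B0 F wt k j' z := by
  obtain ⟨t, ht, h⟩ := h
  exact ⟨t, ht, h.mono ha hj⟩

theorem AvMK.meas {u : ℝ × ℝ → ℝ} (hu : Measurable u) (ω a : ℝ) (B0 : ℕ)
    (F : ℝ → Finset (ℕ × ℤ × ℤ × ℤ)) (wt : ℝ → ℕ × ℤ × ℤ × ℤ → ℝ × ℝ) (k j : ℕ) :
    MeasurableSet {z | AvMK u ω a B0 F wt k j z} := by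
  have e : {z | AvMK u ω a B0 F wt k j z} =
      ⋃ t ∈ F (τk k), {z | AvM u (τk k) ω a (bk B0 k) t.1 (wt (τk k) t) j z} := by
    ext z; simp [AvMK]
  rw [e]
  exact Finset.measurableSet_biUnion _ fun t _ => AvM.meas hu _ _ _ _ _ _ _

theorem EM.meas {u : ℝ × ℝ → ℝ} (hu : Measurable u) {P : ℕ → Set (ℝ × ℝ)}
    (hP : ∀ j, MeasurableSet (P j)) (ω a : ℝ) (B0 : ℕ)
    (F : ℝ → Finset (ℕ × ℤ × ℤ × ℤ)) (wt : ℝ → ℕ × ℤ × ℤ × ℤ → ℝ × ℝ) (k : ℕ)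
    (t : ℕ × ℤ × ℤ × ℤ) (j : ℕ) : MeasurableSet (EM u P ω a B0 F wt k t j) := by
  have e : EM u P ω a B0 F wt k t j = P j ∩
      ({z | AvM u (τk k) ω a (bk B0 k) t.1 (wt (τk k) t) j z} ∩
        ⋂ k' : ℕ, ⋂ _ : k' < k, {z | AvMK u ω a B0 F wt k' j z}ᶜ) := by
    ext z
    simp only [EM, mem_inter_iff, mem_iInter, mem_compl_iff, mem_ofPred_eq]
  rw [e]
  refine (hP j).inter ((AvM.meas hu _ _ _ _ _ _ _).inter ?_)
  exact MeasurableSet.iInter fun k' => MeasurableSet.iInter fun _ =>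
    (AvMK.meas hu ω a B0 F wt k' j).compl

theorem not_inside_grid' {τ r : ℝ} (hr : 0 < r) {a : ℕ} {x : ℝ} {m : ℤ} (hx : q τ a x = m)
    (h : ¬ (q τ a (x - r) = m ∧ q τ a (x + r) = m)) :
    ∃ k : ℤ, |x - (τ + k / 2 ^ a)| ≤ r := by
  rw [not_and_or] at h
  rcases h with h | h
  · obtain ⟨k, h1, h2⟩ := exists_grid_point (τ := τ) (i := a) (x := x - r) (y := x)
      (by linarith) (by rw [hx]; exact h)
    exact ⟨k, by rw [abs_le]; constructor <;> linarith⟩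
  · obtain ⟨k, h1, h2⟩ := exists_grid_point (τ := τ) (i := a) (x := x) (y := x + r)
      (by linarith) (by rw [hx]; exact fun hc => h hc.symm)
    exact ⟨k, by rw [abs_le]; constructor <;> linarith⟩

/-- one of the two grids has the margin `16 / 2 ^ j`, levels at most `j - 8` -/
theorem grid_margin {a b j : ℕ} (hj : 8 ≤ j) (ha : a + 8 ≤ j) (hb : b + 8 ≤ j) {x : ℝ}
    (h0 : ¬ (q 0 a (x - 16 / 2 ^ j) = q 0 a x ∧ q 0 a (x + 16 / 2 ^ j) = q 0 a x))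
    (h1 : ¬ (q (1 / 3) b (x - 16 / 2 ^ j) = q (1 / 3) b x ∧
      q (1 / 3) b (x + 16 / 2 ^ j) = q (1 / 3) b x)) : False := by
  have hp : (0 : ℝ) < 16 / 2 ^ j := by positivity
  obtain ⟨k, hk⟩ := not_inside_grid' hp rfl h0
  obtain ⟨k', hk'⟩ := not_inside_grid' hp rfl h1
  refine two_grids (a := a) (b := b) (j := j - 7) (by omega) (by omega) k k' ?_
  have h2 : (2 : ℝ) ^ j = 2 ^ (j - 7) * 128 := by
    rw [show (128 : ℝ) = 2 ^ 7 by norm_num, ← pow_add]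
    congr 1
    omega
  calc |(k : ℝ) / 2 ^ a - (1 / 3 + (k' : ℝ) / 2 ^ b)|
      = |(x - (1 / 3 + (k' : ℝ) / 2 ^ b)) - (x - (0 + (k : ℝ) / 2 ^ a))| := by
        congr 1; ring
    _ ≤ |x - (1 / 3 + (k' : ℝ) / 2 ^ b)| + |x - (0 + (k : ℝ) / 2 ^ a)| := abs_sub _ _
    _ ≤ 16 / 2 ^ j + 16 / 2 ^ j := add_le_add hk' hk
    _ = 1 / (4 * 2 ^ (j - 7)) := by
        rw [h2]
        have : (0 : ℝ) < 2 ^ (j - 7) := by positivity
        field_simp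
        norm_num

/-- every pair is available somewhere -/
theorem exists_availM {u : ℝ × ℝ → ℝ} {C : ℕ → Set (ℝ × ℝ)} {S D ω a : ℝ}
    (haS : (2 * S + 1) / 256 ≤ a) (hω : 0 < ω)
    {B0 : ℕ} (hB0 : 2 * D + 2 * S + 10 ≤ B0 * ω)
    {F : ℝ → Finset (ℕ × ℤ × ℤ × ℤ)} {wt : ℝ → ℕ × ℤ × ℤ × ℤ → ℝ × ℝ}
    (hF : ∀ τ, TopSel u C S D τ (F τ) (wt τ)) {j : ℕ} {z : ℝ × ℝ} (hj : 8 ≤ j)
    (hz : z ∈ C (j - 8)) : ∃ k < 2 * (2 * B0 + 1), AvMK u ω a B0 F wt k j z := by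
  obtain ⟨t0, ht0, hl0, hq0, hs0, ho0⟩ := (hF 0).dom (j - 8) z hz
  obtain ⟨t1, ht1, hl1, hq1, hs1, ho1⟩ := (hF (1 / 3)).dom (j - 8) z hz
  have hpow : (2 : ℝ) ^ j = 2 ^ (j - 8) * 256 := by
    rw [show (256 : ℝ) = 2 ^ 8 by norm_num, ← pow_add]; congr 1; omega
  have hp : (0 : ℝ) < 2 ^ (j - 8) := by positivity
  -- a generic conclusion
  have key : ∀ (e : ℕ) (he : e < 2) (t : ℕ × ℤ × ℤ × ℤ), t ∈ F (τk e) → t.1 ≤ j - 8 →
      |u z - u (wt (τk e) t)| ≤ (2 * S + 1) * 2 ^ (j - 8) →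
      |z.2 - ln u (wt (τk e) t) z.1| ≤ 2 * D + 2 * S + 10 →
      q (τk e) t.1 (z.1 - 16 / 2 ^ j) = q (τk e) t.1 (wt (τk e) t).1 →
      q (τk e) t.1 (z.1 + 16 / 2 ^ j) = q (τk e) t.1 (wt (τk e) t).1 →
      ∃ k < 2 * (2 * B0 + 1), AvMK u ω a B0 F wt k j z := by
    intro e he t ht hlev hs ho hi1 hi2
    set y : ℝ := (z.2 - ln u (wt (τk e) t) z.1) / ω with hy
    have hyH : y * ω = z.2 - ln u (wt (τk e) t) z.1 := by rw [hy]; field_simp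
    have hyb : |y| ≤ B0 := by
      rw [hy, abs_div, abs_of_pos hω, div_le_iff₀ hω]
      exact ho.trans hB0
    obtain ⟨y1, y2⟩ := abs_le.1 hyb
    have f1 := Int.floor_le y
    have f2 := Int.lt_floor_add_one y
    have hb2 : ((⌊y⌋ : ℤ) : ℝ) ≤ (B0 : ℤ) := by push_cast; linarith
    have hb1' : -(B0 : ℤ) ≤ ⌊y⌋ := by
      rw [Int.le_floor]; push_cast; exact y1
    have hb2' : ⌊y⌋ ≤ (B0 : ℤ) := by exact_mod_cast hb2
    obtain ⟨c, hc⟩ : ∃ c : ℕ, (c : ℤ) = ⌊y⌋ + B0 := ⟨(⌊y⌋ + B0).toNat, by omega⟩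
    have hc2 : c ≤ 2 * B0 := by omega
    set k := 2 * c + e with hk
    have hmod : k % 2 = e := by omega
    have hdiv : k / 2 = c := by omega
    have hτ : τk k = τk e := by
      unfold τk
      rw [hmod, Nat.mod_eq_of_lt he]
    have hbk : bk B0 k = ⌊y⌋ := by
      unfold bk
      rw [hdiv, hc]; ring
    refine ⟨k, by omega, t, by rw [hτ]; exact ht, ?_⟩
    rw [hτ, hbk]
    refine ⟨by omega, hs.trans ?_, ?_, ?_, hi1, hi2⟩
    · rw [hpow]; nlinarith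
    · rw [← hyH]; exact mul_le_mul_of_nonneg_right f1 hω.le
    · rw [← hyH]; exact mul_lt_mul_of_pos_right f2 hω
  by_cases h0 : q 0 t0.1 (z.1 - 16 / 2 ^ j) = q 0 t0.1 z.1 ∧
      q 0 t0.1 (z.1 + 16 / 2 ^ j) = q 0 t0.1 z.1
  · have e0 : τk 0 = 0 := by simp [τk]
    exact key 0 (by norm_num) t0 (by rw [e0]; exact ht0) hl0 (by rw [e0]; exact hs0)
      (by rw [e0]; exact ho0) (by rw [e0]; exact h0.1.trans hq0) (by rw [e0]; exact h0.2.trans hq0)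
  by_cases h1 : q (1 / 3) t1.1 (z.1 - 16 / 2 ^ j) = q (1 / 3) t1.1 z.1 ∧
      q (1 / 3) t1.1 (z.1 + 16 / 2 ^ j) = q (1 / 3) t1.1 z.1
  · have e1 : τk 1 = 1 / 3 := by simp [τk]
    exact key 1 (by norm_num) t1 (by rw [e1]; exact ht1) hl1 (by rw [e1]; exact hs1)
      (by rw [e1]; exact ho1) (by rw [e1]; exact h1.1.trans hq1) (by rw [e1]; exact h1.2.trans hq1)
  exact (grid_margin hj (by omega) (by omega) h0 h1).elim

/-- **The non jump pairs of one class.** `C` the class, `P` its pairs `(z, j)` with `(z, j - 8)`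
in the class. -/
theorem dec_class {u : ℝ × ℝ → ℝ} (hu : Field u) {n : ℕ} {C P : ℕ → Set (ℝ × ℝ)} {S h D D' : ℝ}
    (hC : PSys n C) (hCT : CT u C S D') (hPm : ∀ j, MeasurableSet (P j))
    (hPc : ∀ z, ∀ i j k : ℕ, i ≤ j → j ≤ k → z ∈ P i → z ∈ P k → z ∈ P j)
    (hPC : ∀ j, ∀ z ∈ P j, 8 ≤ j ∧ z ∈ C (j - 8) ∧ z ∈ C j)
    (hS : 8 ≤ S) (hh : 1 ≤ h) (hhD : 32 * h ≤ D) (hD' : 8 * (D + S + 2) ≤ D')
    {N : ℕ} (hN : (2 * D + 2 * S + 10) / (2 * h) ≤ N) :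
    Dec u P ((2 * S + 1) / 256) ((2 * S + 1) / 256) h D (2 * (2 * N + 1)) := by
  classical
  have hh0 : (0 : ℝ) < h := by linarith
  set ω : ℝ := 2 * h with hω
  have hω0 : 0 < ω := by positivity
  have hD0 : 0 ≤ D := by linarith
  set a : ℝ := (2 * S + 1) / 256 with ha
  have ha0 : 0 ≤ a := by positivity
  have ha60 : 60 * a ≤ S / 2 := by rw [ha]; linarith
  have haS : a ≤ S / 2 := by linarith
  have hsel : ∀ τ : ℝ, ∃ F wt, TopSel u C S D τ F wt := fun τ =>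
    exists_topSel hu hC (by linarith) hD0 τ
  choose F wt hF using hsel
  obtain ⟨B0, hB0def⟩ : ∃ B0 : ℕ, B0 = ⌈(2 * D + 2 * S + 10) / ω⌉₊ := ⟨_, rfl⟩
  have hB0N : B0 ≤ N := by
    rw [hB0def]
    exact Nat.ceil_le.2 hN
  have hB0a : 2 * D + 2 * S + 10 ≤ B0 * ω := by
    have := Nat.le_ceil ((2 * D + 2 * S + 10) / ω)
    rw [← hB0def, div_le_iff₀ hω0] at this
    exact this
  have hB0b : (B0 : ℝ) * ω ≤ 2 * D + 2 * S + 10 + ω := by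
    have := Nat.ceil_lt_add_one (by positivity : 0 ≤ (2 * D + 2 * S + 10) / ω)
    rw [← hB0def] at this
    have h2 : (B0 : ℝ) * ω ≤ ((2 * D + 2 * S + 10) / ω + 1) * ω :=
      mul_le_mul_of_nonneg_right this.le hω0.le
    have h3 : ((2 * D + 2 * S + 10) / ω + 1) * ω = 2 * D + 2 * S + 10 + ω := by
      field_simp
    linarith
  set K := 2 * (2 * B0 + 1) with hK
  have hbD : ∀ k < K, |((bk B0 k : ℤ) : ℝ)| * ω + ω + D ≤ D' := by
    intro k hk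
    have h1 := bk_bound (B0 := B0) hk
    have h2 : |((bk B0 k : ℤ) : ℝ)| * ω ≤ B0 * ω := by gcongr
    linarith
  have hbD' : ∀ k < K, |((bk B0 k : ℤ) : ℝ)| * ω + ω ≤ D' := by
    intro k hk
    have := hbD k hk
    linarith
  have huniq : ∀ k < K, ∀ t ∈ F (τk k), ∀ t' ∈ F (τk k), ∀ j j' z,
      z ∈ EM u P ω a B0 F wt k t j → z ∈ EM u P ω a B0 F wt k t' j' → t = t' := by
    intro k hk t ht t' ht' j j' z hz hz'
    rcases le_total j j' with h | h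
    · exact avM_unique haS (by linarith) hCT (hF (τk k)) hω0.le (hbD' k hk) (hPC j' z hz'.1).2.2
        ht ht' (hz.2.1.mono ha0 h) hz'.2.1
    · exact avM_unique haS (by linarith) hCT (hF (τk k)) hω0.le (hbD' k hk) (hPC j z hz.1).2.2
        ht ht' hz.2.1 (hz'.2.1.mono ha0 h)
  have huniqk : ∀ k k' j z t t', t ∈ F (τk k) → t' ∈ F (τk k') → z ∈ EM u P ω a B0 F wt k t j →
      z ∈ EM u P ω a B0 F wt k' t' j → k = k' := by
    intro k k' j z t t' ht ht' hz hz'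
    rcases lt_trichotomy k k' with h | h | h
    · exact absurd ⟨t, ht, hz.2.1⟩ (hz'.2.2 k h)
    · exact h
    · exact absurd ⟨t', ht', hz'.2.1⟩ (hz.2.2 k' h)
  refine ⟨Fin K, inferInstance, fun k => {
      ι := {t // t ∈ F (τk k)}
      fin := inferInstance
      s := fun t => u (wt (τk k) t.1)
      c := fun t => ln u (wt (τk k) t.1) 0 + ((bk B0 k : ℤ) + 1 / 2) * ω
      E := fun t j => EM u P ω a B0 F wt k t.1 j }, fun k => {
      τ := τk k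
      lev := fun t => t.1.1
      m := fun t => q (τk k) t.1.1 (wt (τk k) t.1).1 }, fun _ => a, ?_, fun k => ⟨le_rfl, le_rfl⟩,
      ?_, ?_, ?_, ?_⟩
  · rw [Fintype.card_fin, hK]
    omega
  · rintro ⟨k, hk⟩
    refine ⟨fun t j => EM.meas hu.meas hPm ω a B0 F wt k t.1 j, fun t j z hz => hz.1,
      fun t j z hz => hz.2.1.2.1, ?_, ?_, ?_⟩
    · rintro ⟨t, ht⟩ j z hz
      have h1 := hz.2.1.2.2.1
      have h2 := hz.2.1.2.2.2.1
      have e : z.2 - (ln u (wt (τk k) t) 0 + ((bk B0 k : ℤ) + 1 / 2) * ω +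
          u (wt (τk k) t) * z.1) = z.2 - ln u (wt (τk k) t) z.1 - ((bk B0 k : ℤ) + 1 / 2) * ω := by
        unfold ln; ring
      show |z.2 - (ln u (wt (τk k) t) 0 + ((bk B0 k : ℤ) + 1 / 2) * ω +
        u (wt (τk k) t) * z.1)| ≤ h
      rw [e, abs_le]
      constructor <;> linarith
    · rintro ⟨t, ht⟩ z j k' l' hjk hkl hz hz'
      exact ⟨hPc z j k' l' hjk hkl hz.1 hz'.1, hz.2.1.mono ha0 hjk,
        fun k'' hk'' hav => hz'.2.2 k'' hk'' (hav.mono ha0 hkl)⟩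
    · rintro ⟨t, ht⟩ ⟨t', ht'⟩ j j' z hz hz'
      exact Subtype.ext (huniq k hk t ht t' ht' j j' z hz hz')
  · rintro ⟨k, hk⟩ ⟨t, ht⟩ j z hz x hx
    exact hz.2.1.inside hx
  · rintro ⟨k, hk⟩ ⟨t, ht⟩ ⟨t', ht'⟩ j hne hlev z hz hcell hoff
    exact avM_sep ha0 ha60 hCT (hF (τk k)) hω0.le hD0 (by linarith) (hbD k hk)
      (hPC j z hz.1).2.2 ht ht' (fun h => hne (Subtype.ext h)) hz.2.1 hlev hcell hoff
  · intro j z
    by_cases hz : z ∈ P j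
    · rw [indicator_of_mem hz, Pi.one_apply]
      obtain ⟨h8, hz8, hzj⟩ := hPC j z hz
      have hex := exists_availM (a := a) le_rfl hω0 hB0a hF h8 hz8
      let k := Nat.find hex
      obtain ⟨hkK, t, ht, hav⟩ : k < K ∧ AvMK u ω a B0 F wt k j z := Nat.find_spec hex
      have hzE : z ∈ EM u P ω a B0 F wt k t j := ⟨hz, hav, fun k' hk' hav' =>
        Nat.find_min hex hk' ⟨lt_trans hk' hkK, hav'⟩⟩
      rw [Finset.sum_eq_single (⟨k, hkK⟩ : Fin K), Finset.sum_eq_single (⟨t, ht⟩ : {t // t ∈ F (τk k)})]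
      · show (1 : ℝ) = (EM u P ω a B0 F wt k t j).indicator 1 z
        rw [indicator_of_mem hzE, Pi.one_apply]
      · rintro ⟨t', ht'⟩ _ hne
        refine indicator_of_notMem (fun h => hne ?_) _
        exact Subtype.ext (huniq k hkK t' ht' t ht j j z h hzE)
      · intro h
        exact absurd (Finset.mem_univ _) h
      · rintro ⟨k', hk'⟩ _ hne
        refine Finset.sum_eq_zero fun t' _ => indicator_of_notMem (fun h => hne ?_) _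
        exact Fin.ext (huniqk k' k j z t'.1 t t'.2 ht h hzE)
      · intro h
        exact absurd (Finset.mem_univ _) h
    · rw [indicator_of_notMem hz]
      symm
      refine Finset.sum_eq_zero fun k _ => Finset.sum_eq_zero fun t _ =>
        indicator_of_notMem (fun h => hz h.1) _

end Vale.Agent.P112.F30
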