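import Vale.Agent.P112.F30.FF0b
import Vale.Agent.P112.H788.Cls

/-!
# (FF0) part 3: the jump pairs
-/

open MeasureTheory Set
open scoped ENNReal

set_option linter.dupNamespace false

namespace Vale.Agent.P112.F30

open T H8 R2

variable {κ : Type} [Fintype κ]

/-- slope index -/
noncomputable def sl (u : ℝ × ℝ → ℝ) (j : ℕ) (z : ℝ × ℝ) : ℤ := ⌊u z / 2 ^ j⌋

/-- offset index, height `2 h` -/
noncomputable def ofs (u : ℝ × ℝ → ℝ) (h : ℝ) (j : ℕ) (z : ℝ × ℝ) : ℤ :=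
  ⌊(z.2 - sl u j z * 2 ^ j * z.1) / (2 * h)⌋

/-- fat tile, cell of level `j - 9` -/
noncomputable def ft (u : ℝ × ℝ → ℝ) (h τ : ℝ) (j : ℕ) (z : ℝ × ℝ) : ℕ × ℤ × ℤ × ℤ :=
  (j, q τ (j - 9) z.1, sl u j z, ofs u h j z)

/-- the margin condition -/
def gOK (τ : ℝ) (j : ℕ) (z : ℝ × ℝ) : Prop :=
  q τ (j - 9) (z.1 - 16 / 2 ^ j) = q τ (j - 9) z.1 ∧
    q τ (j - 9) (z.1 + 16 / 2 ^ j) = q τ (j - 9) z.1

theorem gOK.inside {τ : ℝ} {j : ℕ} {z : ℝ × ℝ} (h : gOK τ j z) {x : ℝ}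
    (hx : |x - z.1| ≤ 16 / 2 ^ j) : q τ (j - 9) x = q τ (j - 9) z.1 := by
  obtain ⟨h1, h2⟩ := abs_le.1 hx
  exact q_between h.1 h.2 (by linarith) (by linarith)

theorem gOK_meas (τ : ℝ) (j : ℕ) : MeasurableSet {z | gOK τ j z} := by
  have h1 : Measurable fun z : ℝ × ℝ => q τ (j - 9) (z.1 - 16 / 2 ^ j) :=
    (q_meas τ _).comp (by fun_prop : Measurable fun z : ℝ × ℝ => z.1 - 16 / 2 ^ j)
  have h2 : Measurable fun z : ℝ × ℝ => q τ (j - 9) (z.1 + 16 / 2 ^ j) :=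
    (q_meas τ _).comp (by fun_prop : Measurable fun z : ℝ × ℝ => z.1 + 16 / 2 ^ j)
  have h3 : Measurable fun z : ℝ × ℝ => q τ (j - 9) z.1 := (q_meas τ _).comp measurable_fst
  exact (measurableSet_eq_fun h1 h3).inter (measurableSet_eq_fun h2 h3)

theorem sl_meas {u : ℝ × ℝ → ℝ} (hu : Measurable u) (j : ℕ) : Measurable (sl u j) :=
  (hu.div_const _).floor

theorem ofs_meas {u : ℝ × ℝ → ℝ} (hu : Measurable u) (h : ℝ) (j : ℕ) : Measurable (ofs u h j) := by
  have h1 : Measurable fun z : ℝ × ℝ => ((sl u j z : ℤ) : ℝ) :=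
    (measurable_from_top (f := fun k : ℤ => (k : ℝ))).comp (sl_meas hu j)
  unfold ofs
  exact Measurable.floor ((measurable_snd.sub ((h1.mul_const _).mul measurable_fst)).div_const _)

theorem sl_close {u : ℝ × ℝ → ℝ} {j : ℕ} {z : ℝ × ℝ} {a : ℤ} (h : sl u j z = a) :
    a * 2 ^ j ≤ u z ∧ u z < (a + 1) * 2 ^ j := by
  have hp : (0 : ℝ) < 2 ^ j := by positivity
  obtain ⟨h1, h2⟩ := Int.floor_eq_iff.1 h
  rw [le_div_iff₀ hp] at h1
  rw [div_lt_iff₀ hp] at h2
  exact ⟨h1, h2⟩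

theorem ofs_close {u : ℝ × ℝ → ℝ} {h : ℝ} (hh : 0 < h) {j : ℕ} {z : ℝ × ℝ} {b : ℤ}
    (hb : ofs u h j z = b) : b * (2 * h) ≤ z.2 - sl u j z * 2 ^ j * z.1 ∧
      z.2 - sl u j z * 2 ^ j * z.1 < (b + 1) * (2 * h) := by
  obtain ⟨h1, h2⟩ := Int.floor_eq_iff.1 hb
  rw [le_div_iff₀ (by positivity)] at h1
  rw [div_lt_iff₀ (by positivity)] at h2
  exact ⟨h1, h2⟩

/-- finitely many fat tiles -/
theorem finite_ft {u : ℝ × ℝ → ℝ} (hu : Field u) {n : ℕ} {P : ℕ → Set (ℝ × ℝ)}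
    (hP : PSys n P) {h : ℝ} (hh : 1 ≤ h) (τ : ℝ) :
    {t : ℕ × ℤ × ℤ × ℤ | ∃ z ∈ P t.1, ft u h τ t.1 z = t}.Finite := by
  obtain ⟨U, hU⟩ := hu.bdd
  obtain ⟨r, hr⟩ := hP.bdd
  obtain ⟨R, hR⟩ := exists_nat_gt (2 ^ n * (|r| + |τ|) + 1 + (|U| + 1) +
    (|r| + (|U| + 1) * 2 ^ n * |r| + 1))
  apply Set.Finite.subset (s := (Finset.range n ×ˢ (Finset.Icc (-(R : ℤ)) R ×ˢ
    (Finset.Icc (-(R : ℤ)) R ×ˢ Finset.Icc (-(R : ℤ)) R)) : Finset _)) (Finset.finite_toSet _)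
  rintro ⟨j, k, a, b⟩ ⟨z, hz, ht⟩
  simp only [ft, Prod.mk.injEq, true_and] at ht
  obtain ⟨h1, h2, h3⟩ := ht
  have hjn : j < n := by
    by_contra hc
    push Not at hc
    simp only at hz
    rw [hP.lt j hc] at hz
    exact hz
  have hpj : (1 : ℝ) ≤ 2 ^ j := one_le_pow₀ (by norm_num)
  have hpn : (2 : ℝ) ^ j ≤ 2 ^ n := pow_le_pow_right₀ (by norm_num) hjn.le
  have hpn' : (2 : ℝ) ^ (j - 9) ≤ 2 ^ n := pow_le_pow_right₀ (by norm_num) (by omega)
  obtain ⟨hz1, hz2⟩ := hr j z hz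
  have hz1' : |z.1| ≤ |r| := hz1.trans (le_abs_self _)
  have hz2' : |z.2| ≤ |r| := hz2.trans (le_abs_self _)
  have hUz : |u z| ≤ |U| := (hU z).trans (le_abs_self _)
  have key : ∀ (x B : ℝ), |x| ≤ B → B + 1 ≤ R → ⌊x⌋ ∈ Finset.Icc (-(R : ℤ)) R := by
    intro x B hx hB
    rw [Finset.mem_Icc]
    obtain ⟨x1, x2⟩ := abs_le.1 hx
    have f1 := Int.floor_le x
    have f2 := Int.lt_floor_add_one x
    constructor
    · have : (-(R : ℤ) : ℝ) ≤ ⌊x⌋ := by push_cast; linarith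
      exact_mod_cast this
    · have : ((⌊x⌋ : ℤ) : ℝ) ≤ (R : ℤ) := by push_cast; linarith
      exact_mod_cast this
  have hn1 : 0 ≤ 2 ^ n * (|r| + |τ|) := by positivity
  have hn2 : 0 ≤ |r| + (|U| + 1) * 2 ^ n * |r| := by positivity
  have hua : |u z / 2 ^ j| ≤ |U| := by
    rw [abs_div, abs_of_pos (by positivity : (0 : ℝ) < 2 ^ j)]
    exact (div_le_self (abs_nonneg _) hpj).trans hUz
  have hfa : |((sl u j z : ℤ) : ℝ)| ≤ |U| + 1 := by
    obtain ⟨x1, x2⟩ := abs_le.1 hua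
    have f1 := Int.floor_le (u z / 2 ^ j)
    have f2 := Int.lt_floor_add_one (u z / 2 ^ j)
    unfold sl
    rw [abs_le]; constructor <;> linarith
  simp only [Finset.coe_product, Set.mem_prod, Finset.mem_coe, Finset.mem_range]
  refine ⟨hjn, ?_, ?_, ?_⟩
  · rw [← h1]
    unfold T.q
    apply key _ (2 ^ n * (|r| + |τ|))
    · rw [abs_mul, abs_of_pos (by positivity : (0 : ℝ) < 2 ^ (j - 9))]
      have : |z.1 - τ| ≤ |r| + |τ| := (abs_sub _ _).trans (by linarith)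
      gcongr
    · linarith [abs_nonneg U]
  · rw [← h2]
    exact key _ _ hua (by linarith)
  · rw [← h3]
    apply key _ (|r| + (|U| + 1) * 2 ^ n * |r|)
    · rw [abs_div, abs_of_pos (by positivity : (0 : ℝ) < 2 * h)]
      refine (div_le_self (abs_nonneg _) (by linarith)).trans ?_
      calc |z.2 - sl u j z * 2 ^ j * z.1| ≤ |z.2| + |sl u j z * 2 ^ j * z.1| :=
            abs_sub _ _
        _ ≤ |r| + (|U| + 1) * 2 ^ n * |r| := by
            rw [abs_mul, abs_mul, abs_of_pos (by positivity : (0 : ℝ) < 2 ^ j)]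
            gcongr
    · linarith [abs_nonneg U]

/-- grid of the colour -/
noncomputable def τe (e : Fin 2) : ℝ := if e = 0 then 0 else 1 / 3

/-- pairs of one colour -/
def JC (u : ℝ × ℝ → ℝ) (h : ℝ) (J : ℕ → Set (ℝ × ℝ)) (N1 N2 : ℕ) (c : Fin 2 × Fin N1 × Fin N2)
    (j : ℕ) : Set (ℝ × ℝ) :=
  {z | z ∈ J j ∧ (c.1 = 0 ↔ gOK 0 j z) ∧ sl u j z % N1 = (c.2.1 : ℤ) ∧
    ofs u h j z % N2 = (c.2.2 : ℤ)}

theorem JC_meas {u : ℝ × ℝ → ℝ} (hu : Measurable u) (h : ℝ) {J : ℕ → Set (ℝ × ℝ)}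
    (hJ : ∀ j, MeasurableSet (J j)) (N1 N2 : ℕ) (c : Fin 2 × Fin N1 × Fin N2) (j : ℕ) :
    MeasurableSet (JC u h J N1 N2 c j) := by
  have e : JC u h J N1 N2 c j = J j ∩ ({z | c.1 = 0 ↔ gOK 0 j z} ∩
      ({z | sl u j z % N1 = (c.2.1 : ℤ)} ∩ {z | ofs u h j z % N2 = (c.2.2 : ℤ)})) := rfl
  rw [e]
  refine (hJ j).inter (MeasurableSet.inter ?_ (MeasurableSet.inter ?_ ?_))
  · by_cases hc : c.1 = 0
    · have : {z : ℝ × ℝ | c.1 = 0 ↔ gOK 0 j z} = {z | gOK 0 j z} := by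
        ext z; simp [hc]
      rw [this]
      exact gOK_meas 0 j
    · have : {z : ℝ × ℝ | c.1 = 0 ↔ gOK 0 j z} = {z | gOK 0 j z}ᶜ := by
        ext z; simp [hc]
      rw [this]
      exact (gOK_meas 0 j).compl
  · exact (sl_meas hu j) (MeasurableSet.of_discrete (s := {k : ℤ | k % N1 = (c.2.1 : ℤ)}))
  · exact (ofs_meas hu h j) (MeasurableSet.of_discrete (s := {k : ℤ | k % N2 = (c.2.2 : ℤ)}))

theorem JC_grid {u : ℝ × ℝ → ℝ} {h : ℝ} {J : ℕ → Set (ℝ × ℝ)} {N1 N2 : ℕ}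
    {c : Fin 2 × Fin N1 × Fin N2} {j : ℕ} {z : ℝ × ℝ} (hj : 9 ≤ j) (hz : z ∈ JC u h J N1 N2 c j) :
    gOK (τe c.1) j z := by
  unfold τe
  by_cases hc : c.1 = 0
  · rw [if_pos hc]
    exact hz.2.1.1 hc
  · rw [if_neg hc]
    by_contra hn
    have h0 : ¬ gOK 0 j z := fun h => hc (hz.2.1.2 h)
    exact grid_margin (by omega) (by omega) (by omega) h0 hn

/-- **The jump pairs of one class.** -/
theorem dec_jump {u : ℝ × ℝ → ℝ} (hu : Field u) {M : Tops κ} {n : ℕ} {P : ℕ → Set (ℝ × ℝ)}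
    (hP : PSys n P) (h9 : ∀ j, (P j).Nonempty → 9 ≤ j) {S ε a0 h D : ℝ} (ρ : ℤ) (r : ℕ)
    (ha0 : 1 ≤ a0) (hS : 1024 * (60 * a0 + 1) ≤ S) (hε : 0 ≤ ε) (hh : 1 ≤ h) (hD0 : 0 ≤ D)
    (hD : ε * (512 + (D + h + 512) + 512 * S) ≤ 1 / 16)
    {N1 N2 : ℕ} (hN1 : 60 * a0 + 2 ≤ N1) (hN2 : D / (2 * h) + 2 ≤ N2) :
    Dec u (H788.JP M u S ε P ρ r) a0 a0 h D (2 * (N1 * N2)) := by
  classical
  have hh0 : (0 : ℝ) < h := by linarith
  have hS0 : 0 ≤ S := by linarith
  have hN1p : 0 < N1 := by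
    rcases Nat.eq_zero_or_pos N1 with h0 | h0
    · rw [h0] at hN1; norm_num at hN1; linarith
    · exact h0
  have hN2p : 0 < N2 := by
    have : 0 ≤ D / (2 * h) := by positivity
    rcases Nat.eq_zero_or_pos N2 with h0 | h0
    · rw [h0] at hN2; norm_num at hN2; linarith
    · exact h0
  set J := H788.JP M u S ε P ρ r with hJ
  have hJm : ∀ j, MeasurableSet (J j) := H788.JP_meas hu.meas hP ρ r
  have hJP : ∀ j, J j ⊆ P j := fun j z hz => hz.1
  have hfin : ∀ (c : Fin 2 × Fin N1 × Fin N2),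
      {t : ℕ × ℤ × ℤ × ℤ | ∃ z ∈ JC u h J N1 N2 c t.1, ft u h (τe c.1) t.1 z = t}.Finite := by
    intro c
    refine (finite_ft hu hP hh (τe c.1)).subset ?_
    rintro t ⟨z, hz, ht⟩
    exact ⟨z, hJP _ hz.1, ht⟩
  -- two scales
  have hsep2 : ∀ {j j' : ℕ} {z z' : ℝ × ℝ}, z ∈ J j → z' ∈ J j' → j' < j →
      |z.1 - z'.1| ≤ 512 / 2 ^ j' → |z.2 - ln u z' z.1| ≤ D + h + 512 →
      (60 * a0 + 1) * 2 ^ j < |u z - u z'| := by
    intro j j' z z' hz hz' hlt hx hy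
    have h1 := H788.JP_sep (M := M) hS0 hε (by norm_num : (0 : ℝ) ≤ 512) hD hz hz' hlt hx hy
    refine lt_of_le_of_lt ?_ h1
    have h9j : 9 ≤ j := h9 j ⟨z, hJP j hz⟩
    have h2 : (2 : ℝ) ^ j = 2 ^ (j - 9) * 512 := by
      rw [show (512 : ℝ) = 2 ^ 9 by norm_num, ← pow_add]
      congr 1
      omega
    rw [h2]
    have hp : (0 : ℝ) < 2 ^ (j - 9) := by positivity
    nlinarith
  refine ⟨Fin 2 × Fin N1 × Fin N2, inferInstance, fun c => {
      ι := {t // t ∈ (hfin c).toFinset}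
      fin := inferInstance
      s := fun t => t.1.2.2.1 * 2 ^ t.1.1
      c := fun t => (t.1.2.2.2 + 1 / 2) * (2 * h)
      E := fun t j => {z | z ∈ JC u h J N1 N2 c j ∧ ft u h (τe c.1) j z = t.1} }, fun c => {
      τ := τe c.1
      lev := fun t => t.1.1 - 9
      m := fun t => t.1.2.1 }, fun _ => a0, ?_, fun k => ⟨le_rfl, le_rfl⟩, ?_, ?_, ?_, ?_⟩
  · simp
  · intro c
    refine ⟨?_, fun t j z hz => hz.1.1, ?_, ?_, ?_, ?_⟩
    · rintro ⟨t, ht⟩ j
      have hm : Measurable fun z : ℝ × ℝ => ft u h (τe c.1) j z :=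
        measurable_const.prodMk (((q_meas (τe c.1) _).comp measurable_fst).prodMk
          ((sl_meas hu.meas j).prodMk (ofs_meas hu.meas h j)))
      exact (JC_meas hu.meas h hJm N1 N2 c j).inter (hm (measurableSet_singleton t))
    · rintro ⟨⟨j0, k, a, b⟩, ht⟩ j z ⟨hz, hzt⟩
      simp only [ft, Prod.mk.injEq] at hzt
      obtain ⟨rfl, -, hs, -⟩ := hzt
      obtain ⟨h1, h2⟩ := sl_close hs
      have hp : (0 : ℝ) < 2 ^ j := by positivity
      show |u z - a * 2 ^ j| ≤ a0 * 2 ^ j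
      rw [abs_le]
      constructor <;> nlinarith
    · rintro ⟨⟨j0, k, a, b⟩, ht⟩ j z ⟨hz, hzt⟩
      simp only [ft, Prod.mk.injEq] at hzt
      obtain ⟨rfl, -, hs, ho⟩ := hzt
      obtain ⟨h1, h2⟩ := ofs_close hh0 ho
      rw [hs] at h1 h2
      show |z.2 - ((b + 1 / 2) * (2 * h) + a * 2 ^ j * z.1)| ≤ h
      rw [abs_le]
      constructor <;> linarith
    · rintro t z j k l hjk hkl ⟨hz, hzt⟩ ⟨hz', hzt'⟩
      have e1 : j = t.1.1 := by rw [← hzt]; rfl
      have e2 : l = t.1.1 := by rw [← hzt']; rfl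
      have e3 : k = j := by omega
      rw [e3]
      exact ⟨hz, hzt⟩
    · rintro t t' j j' z ⟨hz, hzt⟩ ⟨hz', hzt'⟩
      have key : ∀ {a b : ℕ}, z ∈ J a → z ∈ J b → b < a → False := by
        intro a b ha hb hab
        have h1 := hsep2 ha hb hab (by rw [sub_self, abs_zero]; positivity) (by
          have : z.2 - ln u z z.1 = 0 := by unfold ln; ring
          rw [this, abs_zero]; linarith)
        rw [sub_self, abs_zero] at h1
        have : (0 : ℝ) < (60 * a0 + 1) * 2 ^ a := by positivity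
        linarith
      have hjj : j = j' := by
        rcases lt_trichotomy j j' with h1 | h1 | h1
        · exact (key hz'.1 hz.1 h1).elim
        · exact h1
        · exact (key hz.1 hz'.1 h1).elim
      subst hjj
      exact Subtype.ext (hzt.symm.trans hzt')
  · rintro c ⟨t, ht⟩ j z ⟨hz, hzt⟩ x hx
    have h1 := (JC_grid (h9 j ⟨z, hJP j hz.1⟩) hz).inside hx
    have hzt0 : ft u h (τe c.1) j z = t := hzt
    have e1 : j = t.1 := by rw [← hzt0]; rfl
    have e2 : q (τe c.1) (j - 9) z.1 = t.2.1 := by rw [← hzt0]; rfl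
    show q (τe c.1) (t.1 - 9) x = t.2.1
    rw [← e1, ← e2]
    exact h1
  · rintro c ⟨t, ht⟩ ⟨t', ht'⟩ j hne hlev z ⟨hz, hzt⟩ hcell hoff
    have hne' : t ≠ t' := fun h => hne (Subtype.ext h)
    rw [Set.Finite.mem_toFinset] at ht'
    obtain ⟨z', hz', hzt'⟩ := ht'
    obtain ⟨j', k', a', b'⟩ := t'
    obtain ⟨j0, k, a, b⟩ := t
    simp only [ft, Prod.mk.injEq, true_and] at hzt hzt' hz'
    obtain ⟨rfl, hk, hs, ho⟩ := hzt
    obtain ⟨hk', hs', ho'⟩ := hzt'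
    have hlev' : j' - 9 ≤ j := hlev
    have hcell' : q (τe c.1) (j' - 9) z.1 = k' := hcell
    have hoff' : |z.2 - ((b' + 1 / 2) * (2 * h) + a' * 2 ^ j' * z.1)| ≤ D := hoff
    show 60 * a0 * 2 ^ j ≤ |u z - a' * 2 ^ j'|
    have h9j : 9 ≤ j := h9 j ⟨z, hJP j hz.1⟩
    have hmod : j % 10 = j' % 10 := hz.1.2.1.trans hz'.1.2.1.symm
    have hp : (0 : ℝ) < 2 ^ j := by positivity
    have hp' : (0 : ℝ) < 2 ^ j' := by positivity
    obtain ⟨u1, u2⟩ := sl_close hs'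
    rcases lt_or_ge j' j with hlt | hge
    · -- longer tile
      have hx : |z.1 - z'.1| ≤ 512 / 2 ^ j' := by
        have h9j' : 9 ≤ j' := h9 j' ⟨z', hJP j' hz'.1⟩
        have h1 := q_close (hcell'.trans hk'.symm)
        refine h1.trans (le_of_eq ?_)
        have h2 : (2 : ℝ) ^ j' = 2 ^ (j' - 9) * 512 := by
          rw [show (512 : ℝ) = 2 ^ 9 by norm_num, ← pow_add]
          congr 1
          omega
        rw [h2]
        have : (0 : ℝ) < 2 ^ (j' - 9) := by positivity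
        field_simp
      have hy : |z.2 - ln u z' z.1| ≤ D + h + 512 := by
        obtain ⟨o1, o2⟩ := ofs_close hh0 ho'
        rw [hs'] at o1 o2
        have e : z.2 - ln u z' z.1 = (z.2 - ((b' + 1 / 2) * (2 * h) + a' * 2 ^ j' * z.1)) -
            (z'.2 - a' * 2 ^ j' * z'.1 - (b' + 1 / 2) * (2 * h)) +
            (a' * 2 ^ j' - u z') * (z.1 - z'.1) := by
          unfold ln; ring
        have g1 : |(a' * 2 ^ j' - u z') * (z.1 - z'.1)| ≤ 512 := by
          rw [abs_mul]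
          have g2 : |(a' : ℝ) * 2 ^ j' - u z'| ≤ 2 ^ j' := by
            rw [abs_le]; constructor <;> nlinarith
          calc |(a' : ℝ) * 2 ^ j' - u z'| * |z.1 - z'.1| ≤ 2 ^ j' * (512 / 2 ^ j') := by gcongr
            _ = 512 := by field_simp
        have g3 : |z'.2 - a' * 2 ^ j' * z'.1 - (b' + 1 / 2) * (2 * h)| ≤ h := by
          rw [abs_le]; constructor <;> linarith
        rw [e]
        have g4 := abs_add_le ((z.2 - ((b' + 1 / 2) * (2 * h) + a' * 2 ^ j' * z.1)) -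
            (z'.2 - a' * 2 ^ j' * z'.1 - (b' + 1 / 2) * (2 * h)))
            ((a' * 2 ^ j' - u z') * (z.1 - z'.1))
        have g5 := abs_sub (z.2 - ((b' + 1 / 2) * (2 * h) + a' * 2 ^ j' * z.1))
            (z'.2 - a' * 2 ^ j' * z'.1 - (b' + 1 / 2) * (2 * h))
        linarith
      have h1 := hsep2 hz.1 hz'.1 hlt hx hy
      have h2 : |u z' - a' * 2 ^ j'| ≤ 2 ^ j := by
        have h3 : (2 : ℝ) ^ j' ≤ 2 ^ j := pow_le_pow_right₀ (by norm_num) hlt.le
        rw [abs_le]; constructor <;> nlinarith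
      have h4 := abs_sub_le (u z) (a' * 2 ^ j') (u z')
      rw [abs_sub_comm (a' * 2 ^ j' : ℝ) (u z')] at h4
      linarith
    · -- same level
      have hjj : j' = j := by omega
      subst hjj
      obtain ⟨v1, v2⟩ := sl_close hs
      have hkk : k = k' := hk.symm.trans hcell'
      have hm1 : a % N1 = a' % N1 := by
        have g1 := hz.2.2.1
        have g2 := hz'.2.2.1
        rw [hs] at g1
        rw [hs'] at g2
        exact g1.trans g2.symm
      have hm2 : b % N2 = b' % N2 := by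
        have g1 := hz.2.2.2
        have g2 := hz'.2.2.2
        rw [ho] at g1
        rw [ho'] at g2
        exact g1.trans g2.symm
      by_cases haa : a = a'
      · -- same slope: offsets far
        exfalso
        have hbb : b ≠ b' := by
          rintro rfl
          exact hne' (by rw [hkk, haa])
        have h1 : (N2 : ℤ) ≤ |b - b'| := by
          have hd : (N2 : ℤ) ∣ b - b' := Int.emod_eq_emod_iff_emod_sub_eq_zero.1 hm2 |>
            Int.dvd_of_emod_eq_zero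
          exact Int.le_of_dvd (abs_pos.2 (sub_ne_zero.2 hbb)) ((dvd_abs _ _).2 hd)
        have h1' : (N2 : ℝ) ≤ |(b : ℝ) - b'| := by exact_mod_cast h1
        obtain ⟨o1, o2⟩ := ofs_close hh0 ho
        rw [hs, haa] at o1 o2
        obtain ⟨w1, w2⟩ := abs_le.1 hoff'
        have hdiv : D / (2 * h) * (2 * h) = D := by field_simp
        have h2 : |(b : ℝ) - b'| * (2 * h) ≤ D + h := by
          have h2h : (0 : ℝ) < 2 * h := by positivity
          have e5 : |(b : ℝ) - b'| * (2 * h) = |((b : ℝ) - b') * (2 * h)| := by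
            rw [abs_mul, abs_of_pos h2h]
          rw [e5, abs_le]
          constructor <;> linarith
        have h3 : (D / (2 * h) + 2) * (2 * h) ≤ |(b : ℝ) - b'| * (2 * h) :=
          mul_le_mul_of_nonneg_right (hN2.trans h1') (by positivity)
        rw [add_mul, hdiv] at h3
        linarith
      · have h1 : (N1 : ℤ) ≤ |a - a'| := by
          have hd : (N1 : ℤ) ∣ a - a' := Int.emod_eq_emod_iff_emod_sub_eq_zero.1 hm1 |>
            Int.dvd_of_emod_eq_zero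
          exact Int.le_of_dvd (abs_pos.2 (sub_ne_zero.2 haa)) ((dvd_abs _ _).2 hd)
        have h1' : (N1 : ℝ) ≤ |(a : ℝ) - a'| := by exact_mod_cast h1
        have h2 : |(a : ℝ) * 2 ^ j' - a' * 2 ^ j'| ≤ |u z - a' * 2 ^ j'| + 2 ^ j' := by
          have h3 : |u z - a * 2 ^ j'| ≤ 2 ^ j' := by
            rw [abs_le]; constructor <;> nlinarith
          have h4 := abs_sub_le ((a : ℝ) * 2 ^ j') (u z) (a' * 2 ^ j')
          rw [abs_sub_comm ((a : ℝ) * 2 ^ j') (u z)] at h4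
          linarith
        rw [← sub_mul, abs_mul, abs_of_pos hp] at h2
        nlinarith
  · intro j z
    by_cases hz : z ∈ J j
    · rw [indicator_of_mem hz, Pi.one_apply]
      have hN1z : (0 : ℤ) < N1 := by exact_mod_cast hN1p
      have hN2z : (0 : ℤ) < N2 := by exact_mod_cast hN2p
      obtain ⟨c1, hc1⟩ : ∃ c1 : Fin N1, ((c1 : ℕ) : ℤ) = sl u j z % N1 := by
        have a1 := Int.emod_nonneg (sl u j z) hN1z.ne'
        have a2 := Int.emod_lt_of_pos (sl u j z) hN1z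
        exact ⟨⟨(sl u j z % N1).toNat, by omega⟩, by simp [a1]⟩
      obtain ⟨c2, hc2⟩ : ∃ c2 : Fin N2, ((c2 : ℕ) : ℤ) = ofs u h j z % N2 := by
        have a1 := Int.emod_nonneg (ofs u h j z) hN2z.ne'
        have a2 := Int.emod_lt_of_pos (ofs u h j z) hN2z
        exact ⟨⟨(ofs u h j z % N2).toNat, by omega⟩, by simp [a1]⟩
      obtain ⟨c0, hc0⟩ : ∃ c0 : Fin 2, (c0 = 0 ↔ gOK 0 j z) := by
        by_cases hg : gOK 0 j z
        · exact ⟨0, by simp [hg]⟩
        · exact ⟨1, by simp [hg]⟩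
      have hzC : z ∈ JC u h J N1 N2 (c0, c1, c2) j := ⟨hz, hc0, hc1.symm, hc2.symm⟩
      have hzT : ft u h (τe c0) j z ∈ (hfin (c0, c1, c2)).toFinset := by
        rw [Set.Finite.mem_toFinset]
        exact ⟨z, hzC, rfl⟩
      rw [Finset.sum_eq_single ((c0, c1, c2) : Fin 2 × Fin N1 × Fin N2)]
      · rw [Finset.sum_eq_single (⟨ft u h (τe c0) j z, hzT⟩ :
          {t // t ∈ (hfin (c0, c1, c2)).toFinset})]
        · symm
          apply indicator_of_mem
          exact ⟨hzC, rfl⟩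
        · rintro ⟨t', ht'⟩ _ hne
          refine indicator_of_notMem (fun h => hne ?_) _
          exact Subtype.ext h.2.symm
        · intro h
          exact absurd (Finset.mem_univ _) h
      · rintro ⟨d0, d1, d2⟩ _ hne
        refine Finset.sum_eq_zero fun t' _ => indicator_of_notMem (fun h => hne ?_) _
        obtain ⟨⟨-, g0, g1, g2⟩, -⟩ := h
        have e1 : d1 = c1 := by
          apply Fin.ext
          have : ((d1 : ℕ) : ℤ) = (c1 : ℕ) := g1.symm.trans hc1.symm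
          exact_mod_cast this
        have e2 : d2 = c2 := by
          apply Fin.ext
          have : ((d2 : ℕ) : ℤ) = (c2 : ℕ) := g2.symm.trans hc2.symm
          exact_mod_cast this
        have e0 : d0 = c0 := by
          have : d0 = 0 ↔ c0 = 0 := g0.trans hc0.symm
          have a1 := d0.2
          have a2 := c0.2
          apply Fin.ext
          rw [Fin.ext_iff, Fin.ext_iff] at this
          simp only [Fin.val_zero] at this
          omega
        rw [e0, e1, e2]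
      · intro h
        exact absurd (Finset.mem_univ _) h
    · rw [indicator_of_notMem hz]
      symm
      refine Finset.sum_eq_zero fun k _ => Finset.sum_eq_zero fun t _ =>
        indicator_of_notMem (fun h => hz h.1.1) _

end Vale.Agent.P112.F30
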