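import Vale.Agent.P112.F30.FF0c
import Vale.Agent.P112.H314.G.ClsG

/-!
# (FF0) part 4: the theorem
-/

open MeasureTheory Set
open scoped ENNReal

set_option linter.dupNamespace false

namespace Vale.Agent.P112.F30

open T H8 R2

variable {κ : Type} [Fintype κ]

theorem Dec.mono {u : ℝ × ℝ → ℝ} {P : ℕ → Set (ℝ × ℝ)} {lo hi h D lo' hi' : ℝ} {N N' : ℕ}
    (hd : Dec u P lo hi h D N) (h1 : lo' ≤ lo) (h2 : hi ≤ hi') (h3 : N ≤ N') :
    Dec u P lo' hi' h D N' := by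
  obtain ⟨I, fI, F, G, a, a1, a2, a3⟩ := hd
  exact ⟨I, fI, F, G, a, a1.trans h3, fun k => ⟨h1.trans (a2 k).1, (a2 k).2.trans h2⟩, a3⟩

/-- the jump pairs are the disjoint union of the classes -/
theorem jmp_part {M : Tops κ} {u : ℝ × ℝ → ℝ} {S ε : ℝ} {P : ℕ → Set (ℝ × ℝ)} {x : ℕ}
    (h9 : ∀ j, (P j).Nonempty → 9 ≤ j) (hB : ∀ j, ∀ z ∈ P j, 3 / 4 ≤ M.B u S ε z j) (hX : ∀ j, ∀ z ∈ P j, M.Nw ε z ≤ 2 ^ x) (j : ℕ)
    (z : ℝ × ℝ) :
    (ClG.jmp M u S ε P 9 j).indicator (1 : ℝ × ℝ → ℝ) z =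
      ∑ i : Fin (8 * x + 5), ∑ r : Fin 10,
        (H788.JP M u S ε P (((i : ℕ) : ℤ) - 4) r j).indicator (1 : ℝ × ℝ → ℝ) z := by
  by_cases hz : z ∈ ClG.jmp M u S ε P 9 j
  · rw [indicator_of_mem hz, Pi.one_apply]
    have hBz := hB j z hz.1
    obtain ⟨ρ, hρ1, hρ2⟩ := exists_mem_Ico_zpow (x := M.B u S ε z j) (y := (11 / 10 : ℝ))
      (by linarith) (by norm_num)
    have hlo : -4 ≤ ρ := by
      by_contra hc
      push Not at hc
      have h1 : (11 / 10 : ℝ) ^ (ρ + 1) ≤ (11 / 10 : ℝ) ^ (-4 : ℤ) :=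
        zpow_le_zpow_right₀ (by norm_num) (by omega)
      have h3 : (11 / 10 : ℝ) ^ (-4 : ℤ) = 10000 / 14641 := by
        rw [zpow_neg, show (4 : ℤ) = ((4 : ℕ) : ℤ) by norm_num, zpow_natCast]
        norm_num
      linarith
    have hhi : ρ ≤ 8 * x := by
      by_contra hc
      push Not at hc
      have h1 : (11 / 10 : ℝ) ^ ((8 * x : ℕ) : ℤ) < (11 / 10 : ℝ) ^ ρ := by
        rw [zpow_lt_zpow_iff_right₀ (by norm_num)]
        push_cast
        exact hc
      rw [zpow_natCast, pow_mul] at h1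
      have h2 : (2 : ℝ) ^ x ≤ ((11 / 10 : ℝ) ^ 8) ^ x :=
        pow_le_pow_left₀ (by norm_num) (by norm_num) x
      have h3 : M.B u S ε z j ≤ M.Nw ε z := FW.B_le_Nw z j
      have h4 := hX j z hz.1
      linarith
    obtain ⟨i, hi⟩ : ∃ i : Fin (8 * x + 5), ((i : ℕ) : ℤ) - 4 = ρ :=
      ⟨⟨(ρ + 4).toNat, by omega⟩, by simp; omega⟩
    have hmem : z ∈ H788.JP M u S ε P (((i : ℕ) : ℤ) - 4) ((⟨j % 10, Nat.mod_lt _ (by norm_num)⟩ :
        Fin 10) : ℕ) j := by
      rw [hi]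
      exact ⟨hz.1, rfl, hρ1, hρ2, hz.2.2⟩
    rw [Finset.sum_eq_single i, Finset.sum_eq_single (⟨j % 10, Nat.mod_lt _ (by norm_num)⟩ : Fin 10)]
    · rw [indicator_of_mem hmem, Pi.one_apply]
    · intro r _ hne
      refine indicator_of_notMem (fun h => hne ?_) _
      exact Fin.ext h.2.1.symm
    · intro h
      exact absurd (Finset.mem_univ _) h
    · intro i' _ hne
      refine Finset.sum_eq_zero fun r _ => indicator_of_notMem (fun h => hne ?_) _
      obtain ⟨-, -, g1, g2, -⟩ := h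
      have a1 := g1.trans_lt hρ2
      have a2 := hρ1.trans_lt g2
      rw [zpow_lt_zpow_iff_right₀ (by norm_num)] at a1 a2
      apply Fin.ext
      omega
    · intro h
      exact absurd (Finset.mem_univ _) h
  · rw [indicator_of_notMem hz]
    symm
    refine Finset.sum_eq_zero fun i _ => Finset.sum_eq_zero fun r _ =>
      indicator_of_notMem (fun h => hz ?_) _
    obtain ⟨g1, g2, g3, g4, g5⟩ := h
    exact ⟨g1, h9 j ⟨z, g1⟩, g5⟩

/-- all the pairs with a bounded count -/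
theorem dec_sml {u : ℝ × ℝ → ℝ} (hu : Field u) {M : Tops κ} {n : ℕ} {P : ℕ → Set (ℝ × ℝ)}
    (hP : PSys n P) (h9 : ∀ j, (P j).Nonempty → 9 ≤ j) {a0 H ε : ℝ} (ha0 : 1 ≤ a0)
    (haH : a0 ≤ H) (hH : 2 ≤ H) (hε : 0 < ε) (hεH : ε * (2 ^ 30 * H) ≤ 1)
    (hB : ∀ j, ∀ z ∈ P j, 3 / 4 ≤ M.B u (2 ^ 16 * a0) ε z j) {x : ℕ}
    (hX : ∀ j, ∀ z ∈ P j, M.Nw ε z ≤ 2 ^ x) {N1 : ℕ} (hN1 : 60 * a0 + 2 ≤ N1) :
    Dec u P a0 (513 * a0) (H / 2) (32 * H) ((84 * x + 54) * (2 ^ 20 * N1)) := by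
  set S : ℝ := 2 ^ 16 * a0 with hS
  have hS0 : 0 ≤ S := by positivity
  have hN1p : 1 ≤ N1 := by
    rcases Nat.eq_zero_or_pos N1 with h0 | h0
    · rw [h0] at hN1; norm_num at hN1; linarith
    · exact h0
  have hH0 : 0 < H := by linarith
  -- trees
  have htree : ∀ k : ℤ, Dec u (ClG.trk M u S ε P 9 k) a0 (513 * a0) (H / 2) (32 * H)
      (2 ^ 20 * N1) := by
    intro k
    have hCT : CT u (H788.Cl M u S ε P n k) S (8 * (32 * H + S + 2)) := by
      refine H788.ct_Cl hS0 hε.le ?_ k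
      have h1 : 2 + 8 * (32 * H + S + 2) + 2 * S ≤ 2 ^ 28 * H := by
        rw [hS]; norm_num; linarith
      have h2 := mul_le_mul_of_nonneg_left h1 hε.le
      have h3 : ε * (2 ^ 28 * H) = ε * (2 ^ 30 * H) / 4 := by ring
      linarith
    have hsub : ∀ j, ∀ z ∈ ClG.trk M u S ε P 9 k j, 8 ≤ j ∧
        z ∈ H788.Cl M u S ε P n k (j - 8) ∧ z ∈ H788.Cl M u S ε P n k j := by
      intro j z hz
      obtain ⟨h1, h2, h3, h4, h5⟩ := hz
      refine ⟨by omega, ⟨H788.mem_amb hP (by omega) h1, h3.trans (FW.B_mono hS0 (by omega)),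
        (FW.B_mono hS0 (by omega)).trans_lt h5⟩,
        ⟨H788.mem_amb hP le_rfl h1, h3.trans (FW.B_mono hS0 (by omega)), h5⟩⟩
    have h := dec_class hu (S := S) (h := H / 2) (D := 32 * H) (N := 131146)
      (H788.psys_Cl hu.meas hS0 hP k) hCT (ClG.trk_psys hu.meas hS0 hP k).meas
      (ClG.trk_psys hu.meas hS0 hP k).conv hsub (by rw [hS]; norm_num; linarith)
      (by linarith) (by linarith) le_rfl (by
        rw [show 2 * (H / 2) = H by ring, div_le_iff₀ hH0, hS]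
        norm_num
        linarith)
    refine h.mono ?_ ?_ ?_
    · rw [hS, le_div_iff₀ (by norm_num)]; norm_num; linarith
    · rw [hS, div_le_iff₀ (by norm_num)]; norm_num; linarith
    · calc 2 * (2 * 131146 + 1) ≤ 2 ^ 20 * 1 := by norm_num
        _ ≤ 2 ^ 20 * N1 := Nat.mul_le_mul_left _ hN1p
  -- jumps
  have hjump : ∀ (ρ : ℤ) (r : ℕ), Dec u (H788.JP M u S ε P ρ r) a0 (513 * a0) (H / 2) (32 * H)
      (2 ^ 20 * N1) := by
    intro ρ r
    have h := dec_jump hu (M := M) hP h9 (S := S) (ε := ε) (a0 := a0) (h := H / 2) (D := 32 * H)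
      ρ r ha0 (by rw [hS]; norm_num; linarith) hε.le (by linarith) (by linarith) (by
        have h1 : 512 + (32 * H + H / 2 + 512) + 512 * S ≤ 2 ^ 26 * H := by
          rw [hS]; norm_num; linarith
        have h2 := mul_le_mul_of_nonneg_left h1 hε.le
        have h3 : ε * (2 ^ 26 * H) = ε * (2 ^ 30 * H) / 16 := by ring
        linarith) (N1 := N1) (N2 := 34) hN1 (by
        rw [show 2 * (H / 2) = H by ring, mul_div_assoc, div_self hH0.ne']
        norm_num)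
    refine h.mono le_rfl (by linarith) ?_
    omega
  have hX' : Fintype.card (Fin (4 * x + 4) ⊕ (Fin (8 * x + 5) × Fin 10)) = 84 * x + 54 := by
    simp
    ring
  rw [← hX']
  refine Dec.sigma (Px := Sum.elim (fun i : Fin (4 * x + 4) => ClG.trk M u S ε P 9 (((i : ℕ) : ℤ) - 3))
    (fun c : Fin (8 * x + 5) × Fin 10 => H788.JP M u S ε P (((c.1 : ℕ) : ℤ) - 4) c.2)) ?_ ?_ ?_
  · rintro (i | c)
    · exact htree _
    · exact hjump _ _
  · rintro (i | c) j z hz
    · exact hz.1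
    · exact hz.1
  · intro j z
    rw [ClG.ind_part (l := 9) h9 hB hX j 1 z, jmp_part h9 hB hX j z, Fintype.sum_sum_type,
      Fintype.sum_prod_type, Finset.sum_range]
    rfl

/-- **(FF0)**, the literal statement of `G/R2.lean`. -/
theorem stFF0 : StFF0 := by
  obtain ⟨C1, hC1, hlist⟩ := ClG.exists_list
  refine ⟨2 ^ 40 + ⌈C1⌉₊, by omega, ?_⟩
  intro u hu E0 hE0 hb0 n ν P hP hPd hCj a0 H X ha haH' hX
  set C : ℕ := 2 ^ 40 + ⌈C1⌉₊ with hC
  have hCR : (2 : ℝ) ^ 40 ≤ C := by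
    rw [hC]; push_cast
    have : (0 : ℝ) ≤ ⌈C1⌉₊ := by positivity
    linarith
  have hCC1 : C1 ≤ C := by
    rw [hC]; push_cast
    have := Nat.le_ceil C1
    have h2 : (0 : ℝ) ≤ 2 ^ 40 := by positivity
    linarith
  have hp1 : (1 : ℝ) ≤ 2 ^ ν := one_le_pow₀ (by norm_num)
  have hCa : (C : ℝ) ≤ a0 := by nlinarith
  have ha0 : (2 : ℝ) ^ 40 ≤ a0 := hCR.trans hCa
  have ha1 : 1 ≤ a0 := by norm_num at ha0; linarith
  have haH : a0 ≤ H := by
    first
      | exact haH'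
      | exact le_trans (le_mul_of_one_le_left (by linarith) (le_trans (by norm_num) hCR)) haH'
  have hH2 : 2 ≤ H := by norm_num at ha0; linarith
  have hH0 : 0 < H := by linarith
  have h9 : ∀ j, (P j).Nonempty → 9 ≤ j := fun j hj => by
    have := hCj j hj
    omega
  set ε : ℝ := 1 / (2 ^ 30 * H) with hε
  have hε0 : 0 < ε := by positivity
  have hεH : ε * (2 ^ 30 * H) ≤ 1 := by
    rw [hε, one_div, inv_mul_cancel₀ (by positivity)]
  set S : ℝ := 2 ^ 16 * a0 with hS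
  obtain ⟨κ, fκ, M, hM1, -, -, hM3⟩ := hlist u hu E0 hE0 hb0 n ν S ε (by
      have h1 : C1 * 2 ^ ν ≤ C * 2 ^ ν := mul_le_mul_of_nonneg_right hCC1 (by positivity)
      rw [hS]; norm_num; linarith) hε0 (by
      have h1 : 2 + 2 * S ≤ 2 ^ 28 * H := by rw [hS]; norm_num; linarith
      have h2 := mul_le_mul_of_nonneg_left h1 hε0.le
      have h3 : ε * (2 ^ 28 * H) = ε * (2 ^ 30 * H) / 4 := by ring
      linarith)
  -- the number of classes
  have hlogH : 0 ≤ Real.log H := Real.log_nonneg (by linarith)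
  obtain ⟨x, hx⟩ : ∃ x : ℕ, x = ⌈63 + 2 * (3 * Real.log H + X)⌉₊ := ⟨_, rfl⟩
  have hx1 : 63 + 2 * (3 * Real.log H + X) ≤ x := by rw [hx]; exact Nat.le_ceil _
  have hx2 : (x : ℝ) ≤ 64 + 2 * (3 * Real.log H + X) := by
    have := Nat.ceil_lt_add_one (by positivity : (0 : ℝ) ≤ 63 + 2 * (3 * Real.log H + X))
    rw [← hx] at this
    linarith
  have h2x : 2 ^ 63 * H ^ 3 * Real.exp X ≤ (2 : ℝ) ^ x := by
    have hl2 := Real.log_two_gt_d9
    have h1 : Real.log (2 ^ 63 * H ^ 3 * Real.exp X) ≤ Real.log ((2 : ℝ) ^ x) := by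
      rw [Real.log_mul (by positivity) (by positivity), Real.log_mul (by positivity) (by positivity),
        Real.log_pow, Real.log_pow, Real.log_exp, Real.log_pow]
      push_cast
      have h3 : (63 + 2 * (3 * Real.log H + X)) * Real.log 2 ≤ x * Real.log 2 :=
        mul_le_mul_of_nonneg_right hx1 (by linarith)
      have h4 : 0 ≤ (3 * Real.log H + X) * (2 * Real.log 2 - 1) :=
        mul_nonneg (by positivity) (by linarith)
      linarith
    exact (Real.log_le_log_iff (by positivity) (by positivity)).1 h1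
  -- the small and the big part
  set P' := ClG.sml M ε P (2 ^ x) with hP'
  have hPs : PSys n P' := ClG.sml_psys hP _
  have hPsub : ∀ j, P' j ⊆ P j := fun j z hz => hz.1
  obtain ⟨N1, hN1⟩ : ∃ N1 : ℕ, N1 = ⌈60 * a0 + 2⌉₊ := ⟨_, rfl⟩
  have hN1a : 60 * a0 + 2 ≤ N1 := by rw [hN1]; exact Nat.le_ceil _
  have hN1b : (N1 : ℝ) ≤ 63 * a0 := by
    have := Nat.ceil_lt_add_one (by positivity : (0 : ℝ) ≤ 60 * a0 + 2)
    rw [← hN1] at this
    linarith
  obtain ⟨I, fI, F, G, a, hcard, hatol, hOk, hMarg, hSep, hpart⟩ := dec_sml hu (M := M) hPs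
    (fun j ⟨z, hz⟩ => h9 j ⟨z, hPsub j hz⟩) ha1 haH hH2 hε0 hεH
    (fun j z hz => hM3 j z (hPd j (hPsub j hz))) (x := x) (fun j z hz => hz.2) hN1a
  refine ⟨Fintype.card I, fun k => F ((Fintype.equivFin I).symm k),
    fun k => G ((Fintype.equivFin I).symm k), fun k => a ((Fintype.equivFin I).symm k),
    ClG.big M ε P (2 ^ x), ?_, fun k => ?_, fun k => ?_, fun k => hMarg _, fun k => hSep _,
    ClG.big_psys hP _, fun j z hz => hz.1, ?_, ?_⟩
  · -- the count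
    have h1 : (Fintype.card I : ℝ) ≤ (84 * x + 54) * (2 ^ 20 * N1) := by exact_mod_cast hcard
    have h2 : (84 * (x : ℝ) + 54) ≤ 84 * 68 * (Real.log H + X) := by nlinarith
    have hlX : 1 ≤ Real.log H + X := by linarith
    have h3 : (Fintype.card I : ℝ) ≤ 2 ^ 40 * (a0 * (Real.log H + X)) := by
      calc (Fintype.card I : ℝ) ≤ (84 * x + 54) * (2 ^ 20 * N1) := h1
        _ ≤ (84 * 68 * (Real.log H + X)) * (2 ^ 20 * (63 * a0)) := by gcongr
        _ = 84 * 68 * 63 * 2 ^ 20 * (a0 * (Real.log H + X)) := by ring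
        _ ≤ 2 ^ 40 * (a0 * (Real.log H + X)) := by
            gcongr
            norm_num
    have hbase : 1 ≤ a0 * (Real.log H + X) := by nlinarith
    have h4 : a0 * (Real.log H + X) ≤ (a0 * (Real.log H + X)) ^ C :=
      le_self_pow₀ hbase (by rw [hC]; positivity)
    calc (Fintype.card I : ℝ) ≤ 2 ^ 40 * (a0 * (Real.log H + X)) := h3
      _ ≤ C * (a0 * (Real.log H + X)) ^ C := by gcongr
  · refine ⟨(hatol _).1, (hatol _).2.trans ?_⟩
    have : (513 : ℝ) ≤ C := le_trans (by norm_num) hCR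
    gcongr
  · have := hOk ((Fintype.equivFin I).symm k)
    exact ⟨this.meas, fun i j => (this.sub i j).trans (hPsub j), this.slope, this.line,
      this.conv, this.uniq⟩
  · -- the mass
    refine (ClG.vol_big (P := P) (n := n) hε0 (X := 2 ^ x) (by positivity)).trans ?_
    have hs0 : 0 ≤ ∑ m, (1 / 2 : ℝ) ^ M.j m := Finset.sum_nonneg fun m _ => by positivity
    have h2ν : (2 : ℝ) ^ (ν + 1) ≤ 2 * H := by
      rw [pow_succ]
      have : (1 : ℝ) * 2 ^ ν ≤ C * 2 ^ ν := by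
        gcongr
        exact le_trans (by norm_num) hCR
      linarith
    calc ENNReal.ofReal (4 / ε ^ 2 * (∑ m, (1 / 2) ^ M.j m) / 2 ^ x)
        = ENNReal.ofReal (4 / ε ^ 2 / 2 ^ x) * ENNReal.ofReal (∑ m, (1 / 2) ^ M.j m) := by
          rw [← ENNReal.ofReal_mul (by positivity)]
          congr 1
          ring
      _ ≤ ENNReal.ofReal (4 / ε ^ 2 / 2 ^ x) * (ENNReal.ofReal (2 ^ (ν + 1)) * volume E0) := by
          gcongr
      _ = ENNReal.ofReal (4 / ε ^ 2 / 2 ^ x * 2 ^ (ν + 1)) * volume E0 := by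
          rw [ENNReal.ofReal_mul (by positivity), mul_assoc]
      _ ≤ ENNReal.ofReal (Real.exp (-X)) * volume E0 := by
          gcongr
          rw [Real.exp_neg, hε]
          have e1 : 4 / (1 / (2 ^ 30 * H)) ^ 2 = 2 ^ 62 * H ^ 2 := by
            field_simp
            norm_num
          rw [e1, div_mul_eq_mul_div, div_le_iff₀ (by positivity)]
          have h5 : Real.exp X ≠ 0 := (Real.exp_pos X).ne'
          calc 2 ^ 62 * H ^ 2 * 2 ^ (ν + 1) ≤ 2 ^ 62 * H ^ 2 * (2 * H) := by gcongr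
            _ = (Real.exp X)⁻¹ * (2 ^ 63 * H ^ 3 * Real.exp X) := by
                field_simp
            _ ≤ (Real.exp X)⁻¹ * 2 ^ x := by gcongr
  · intro j z
    rw [ClG.ind_big (M := M) (ε := ε) (P := P) (2 ^ x) j 1 z]
    congr 1
    rw [hpart j z]
    exact (Equiv.sum_comp (Fintype.equivFin I).symm
      (fun k => ∑ i, ((F k).E i j).indicator (1 : ℝ × ℝ → ℝ) z)).symm

end Vale.Agent.P112.F30
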