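import Vale.Agent.P112.F30.Defs
import Vale.Agent.P112.H8.GridQ

/-!
# (FF) part 1: grid facts, tiles, selection of tops
-/

open MeasureTheory Set
open scoped ENNReal

set_option linter.dupNamespace false

namespace Vale.Agent.P112.F30

open T H8

theorem q_nest_le {τ : ℝ} {i j : ℕ} (h : i ≤ j) {x x' : ℝ} (hx : q τ j x = q τ j x') :
    q τ i x = q τ i x' := by
  induction j, h using Nat.le_induction with
  | base => exact hx
  | succ j _ ih => exact ih (q_nest τ j x x' hx)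

theorem q_mono {τ : ℝ} {i : ℕ} {x y : ℝ} (h : x ≤ y) : q τ i x ≤ q τ i y := by
  unfold T.q
  apply Int.floor_le_floor
  have : (0 : ℝ) < 2 ^ i := by positivity
  nlinarith

theorem q_close {τ : ℝ} {i : ℕ} {x y : ℝ} (h : q τ i x = q τ i y) : |x - y| ≤ 1 / 2 ^ i := by
  obtain ⟨a1, a2⟩ := (q_eq_iff τ i x _).1 rfl
  obtain ⟨b1, b2⟩ := (q_eq_iff τ i y _).1 h.symm
  have hp : (0 : ℝ) < 2 ^ i := by positivity
  rw [abs_le, neg_le_iff_add_nonneg]
  constructor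
  · have : -1 ≤ 2 ^ i * (x - y) := by nlinarith
    have h2 : x - y + 1 / 2 ^ i = (2 ^ i * (x - y) + 1) / 2 ^ i := by field_simp
    rw [h2]
    exact div_nonneg (by linarith) hp.le
  · rw [le_div_iff₀ hp]
    nlinarith

/-- between two points of a cell -/
theorem q_between {τ : ℝ} {i : ℕ} {x y t : ℝ} {m : ℤ} (hx : q τ i x = m) (hy : q τ i y = m)
    (h1 : x ≤ t) (h2 : t ≤ y) : q τ i t = m := by
  have a := q_mono (τ := τ) (i := i) h1
  have b := q_mono (τ := τ) (i := i) h2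
  omega

/-- if two points are in different cells of level `i`, there is a grid point between them -/
theorem exists_grid_point {τ : ℝ} {i : ℕ} {x y : ℝ} (hxy : x ≤ y) (h : q τ i x ≠ q τ i y) :
    ∃ k : ℤ, x ≤ τ + k / 2 ^ i ∧ τ + k / 2 ^ i ≤ y := by
  have hp : (0 : ℝ) < 2 ^ i := by positivity
  refine ⟨q τ i y, ?_, ?_⟩
  · have hlt : q τ i x < q τ i y := lt_of_le_of_ne (q_mono hxy) h
    obtain ⟨a1, a2⟩ := (q_eq_iff τ i x _).1 rfl
    have : ((q τ i x : ℤ) : ℝ) + 1 ≤ q τ i y := by exact_mod_cast hlt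
    have h3 : x - τ ≤ (q τ i y : ℝ) / 2 ^ i := by
      rw [le_div_iff₀ hp]; nlinarith
    linarith
  · obtain ⟨a1, a2⟩ := (q_eq_iff τ i y _).1 rfl
    have h3 : (q τ i y : ℝ) / 2 ^ i ≤ y - τ := by
      rw [div_le_iff₀ hp]; nlinarith
    linarith

/-- the two grids have no common small gap: for levels `a, b < j` the points of the grid `0` of
level `a` and of the grid `1 / 3` of level `b` have distance `> 1 / (4 * 2 ^ j)` -/
theorem two_grids {a b j : ℕ} (ha : a < j) (hb : b < j) (k k' : ℤ)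
    (h : |(k : ℝ) / 2 ^ a - (1 / 3 + (k' : ℝ) / 2 ^ b)| ≤ 1 / (4 * 2 ^ j)) : False := by
  obtain ⟨c, rfl⟩ : ∃ c, j = a + c + 1 := ⟨j - a - 1, by omega⟩
  obtain ⟨d, hd⟩ : ∃ d, a + c + 1 = b + d + 1 := ⟨a + c + 1 - b - 1, by omega⟩
  -- multiply by `3 * 2 ^ j`
  have hp : (0 : ℝ) < 2 ^ (a + c + 1) := by positivity
  have e1 : (k : ℝ) / 2 ^ a = (k * 2 ^ (c + 1) : ℤ) / 2 ^ (a + c + 1) := by
    push_cast
    rw [show a + c + 1 = a + (c + 1) by ring, pow_add]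
    field_simp
    ring
  have e2 : (k' : ℝ) / 2 ^ b = (k' * 2 ^ (d + 1) : ℤ) / 2 ^ (a + c + 1) := by
    push_cast
    rw [hd, show b + d + 1 = b + (d + 1) by ring, pow_add]
    field_simp
    ring
  rw [e1, e2] at h
  set X : ℤ := k * 2 ^ (c + 1)
  set Y : ℤ := k' * 2 ^ (d + 1)
  have h2 : |(3 * (X - Y) : ℝ) - 2 ^ (a + c + 1)| ≤ 3 / 4 := by
    have e3 : (3 * (X - Y) : ℝ) - 2 ^ (a + c + 1) =
        3 * 2 ^ (a + c + 1) * ((X : ℝ) / 2 ^ (a + c + 1) - (1 / 3 + (Y : ℝ) / 2 ^ (a + c + 1))) := by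
      field_simp
      ring
    rw [e3, abs_mul, abs_of_pos (by positivity)]
    calc 3 * 2 ^ (a + c + 1) * |(X : ℝ) / 2 ^ (a + c + 1) - (1 / 3 + (Y : ℝ) / 2 ^ (a + c + 1))|
        ≤ 3 * 2 ^ (a + c + 1) * (1 / (4 * 2 ^ (a + c + 1))) := by gcongr
      _ = 3 / 4 := by field_simp
  have h3 : ((|3 * (X - Y) - 2 ^ (a + c + 1)| : ℤ) : ℝ) ≤ 3 / 4 := by
    push_cast
    exact h2
  have h4 : |3 * (X - Y) - 2 ^ (a + c + 1)| < 1 := by
    have : ((|3 * (X - Y) - 2 ^ (a + c + 1)| : ℤ) : ℝ) < 1 := by linarith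
    exact_mod_cast this
  have h5 : 3 * (X - Y) - 2 ^ (a + c + 1) = 0 := by
    rw [← Int.abs_lt_one_iff]; exact h4
  have h6 : (3 : ℤ) ∣ 2 ^ (a + c + 1) := ⟨X - Y, by linarith⟩
  have h7 : (3 : ℤ) ∣ 2 := Int.Prime.dvd_pow' (by norm_num : Nat.Prime 3) h6
  norm_num at h7

/-- greedy selection: pairwise not related, dominating from above -/
theorem exists_sel {α : Type*} [DecidableEq α] (F : Finset α) (lev : α → ℕ) (R : α → α → Prop)
    (hR : ∀ x y, R x y → R y x) :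
    ∃ G ⊆ F, (∀ x ∈ G, ∀ y ∈ G, x ≠ y → ¬ R x y) ∧
      ∀ p ∈ F, ∃ x ∈ G, lev x ≤ lev p ∧ (x = p ∨ R x p) := by
  classical
  induction F using Finset.induction_on_max_value lev with
  | empty => exact ⟨∅, Finset.Subset.refl _, by simp, by simp⟩
  | insert a s ha hmax ih =>
    obtain ⟨G, hGs, hG1, hG2⟩ := ih
    by_cases h : ∃ x ∈ G, R x a
    · refine ⟨G, hGs.trans (Finset.subset_insert _ _), hG1, ?_⟩
      intro p hp
      rcases Finset.mem_insert.1 hp with rfl | hp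
      · obtain ⟨x, hx, hRx⟩ := h
        exact ⟨x, hx, hmax x (hGs hx), Or.inr hRx⟩
      · exact hG2 p hp
    · push Not at h
      refine ⟨insert a G, Finset.insert_subset_insert _ hGs, ?_, ?_⟩
      · intro x hx y hy hne
        rcases Finset.mem_insert.1 hx with hx1 | hx1
        · rcases Finset.mem_insert.1 hy with hy1 | hy1
          · exact absurd (hx1.trans hy1.symm) hne
          · rw [hx1]
            exact fun hc => h y hy1 (hR _ _ hc)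
        · rcases Finset.mem_insert.1 hy with hy1 | hy1
          · rw [hy1]
            exact h x hx1
          · exact hG1 x hx1 y hy1 hne
      · intro p hp
        rcases Finset.mem_insert.1 hp with rfl | hp
        · exact ⟨p, Finset.mem_insert_self _ _, le_rfl, Or.inl rfl⟩
        · obtain ⟨x, hx, h1, h2⟩ := hG2 p hp
          exact ⟨x, Finset.mem_insert_of_mem hx, h1, h2⟩

theorem Near.symm {u : ℝ × ℝ → ℝ} {τ S T : ℝ} {jU jU' : ℕ} {U U' : ℝ × ℝ}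
    (h : Near u τ S T jU U jU' U') : Near u τ S T jU' U' jU U := by
  obtain ⟨h1, x, h2, h3, h4⟩ := h
  refine ⟨by rw [abs_sub_comm, max_comm]; exact h1, x, h3, h2, by rw [abs_sub_comm]; exact h4⟩

/-- the tile of a point at the level `j` -/
noncomputable def tl (u : ℝ × ℝ → ℝ) (τ : ℝ) (j : ℕ) (z : ℝ × ℝ) : ℤ × ℤ × ℤ :=
  (q τ j z.1, ⌊u z / 2 ^ j⌋, ⌊z.2 - ⌊u z / 2 ^ j⌋ * 2 ^ j * z.1⌋)

/-- two points of one tile -/
theorem tl_close {u : ℝ × ℝ → ℝ} {τ : ℝ} {j : ℕ} {z w : ℝ × ℝ} (h : tl u τ j z = tl u τ j w) :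
    q τ j z.1 = q τ j w.1 ∧ |u z - u w| ≤ 2 ^ j ∧ |z.2 - ln u w z.1| ≤ 2 := by
  simp only [tl, Prod.mk.injEq] at h
  obtain ⟨h1, h2, h3⟩ := h
  have hp : (0 : ℝ) < 2 ^ j := by positivity
  rw [← h2] at h3
  set a : ℤ := ⌊u z / 2 ^ j⌋ with ha
  obtain ⟨a1, a2⟩ := Int.floor_eq_iff.1 ha.symm
  obtain ⟨b1, b2⟩ := Int.floor_eq_iff.1 h2.symm
  obtain ⟨c1, c2⟩ := Int.floor_eq_iff.1 h3
  obtain ⟨d1, d2⟩ := Int.floor_eq_iff.1 (rfl : ⌊w.2 - a * 2 ^ j * w.1⌋ = _)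
  rw [le_div_iff₀ hp] at a1 b1
  rw [div_lt_iff₀ hp] at a2 b2
  have hx := q_close h1
  refine ⟨h1, ?_, ?_⟩
  · rw [abs_le]; constructor <;> nlinarith
  · unfold ln
    have e : z.2 - (w.2 + u w * (z.1 - w.1)) =
        ((z.2 - a * 2 ^ j * z.1) - (w.2 - a * 2 ^ j * w.1)) + (a * 2 ^ j - u w) * (z.1 - w.1) := by
      ring
    rw [e]
    have h4 : |(a * 2 ^ j - u w) * (z.1 - w.1)| ≤ 1 := by
      rw [abs_mul]
      have : |(a : ℝ) * 2 ^ j - u w| ≤ 2 ^ j := by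
        rw [abs_le]; constructor <;> nlinarith
      calc |(a : ℝ) * 2 ^ j - u w| * |z.1 - w.1| ≤ 2 ^ j * (1 / 2 ^ j) := by gcongr
        _ = 1 := by field_simp
    have h5 : |(z.2 - a * 2 ^ j * z.1) - (w.2 - a * 2 ^ j * w.1)| ≤ 1 := by
      rw [abs_le]; constructor <;> linarith
    calc _ ≤ |(z.2 - a * 2 ^ j * z.1) - (w.2 - a * 2 ^ j * w.1)| +
          |(a * 2 ^ j - u w) * (z.1 - w.1)| := abs_add_le _ _
      _ ≤ 2 := by linarith

/-- finitely many tiles -/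
theorem finite_tiles {u : ℝ × ℝ → ℝ} (hu : Field u) {n : ℕ} {P : ℕ → Set (ℝ × ℝ)}
    (hP : PSys n P) (τ : ℝ) :
    {t : ℕ × ℤ × ℤ × ℤ | ∃ z ∈ P t.1, tl u τ t.1 z = t.2}.Finite := by
  obtain ⟨U, hU⟩ := hu.bdd
  obtain ⟨r, hr⟩ := hP.bdd
  obtain ⟨R, hR⟩ := exists_nat_gt (2 ^ n * (|r| + |τ|) + 1 + (|U| + 1) +
    (|r| + (|U| + 1) * 2 ^ n * |r| + 1))
  apply Set.Finite.subset (s := (Finset.range n ×ˢ (Finset.Icc (-(R : ℤ)) R ×ˢ
    (Finset.Icc (-(R : ℤ)) R ×ˢ Finset.Icc (-(R : ℤ)) R)) : Finset _)) (Finset.finite_toSet _)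
  rintro ⟨j, k, a, b⟩ ⟨z, hz, ht⟩
  simp only [tl, Prod.mk.injEq] at ht
  obtain ⟨h1, h2, h3⟩ := ht
  have hjn : j < n := by
    by_contra hc
    push Not at hc
    simp only at hz
    rw [hP.lt j hc] at hz
    exact hz
  have hpj : (1 : ℝ) ≤ 2 ^ j := one_le_pow₀ (by norm_num)
  have hpn : (2 : ℝ) ^ j ≤ 2 ^ n := pow_le_pow_right₀ (by norm_num) hjn.le
  obtain ⟨hz1, hz2⟩ := hr j z hz
  have hz1' : |z.1| ≤ |r| := hz1.trans (le_abs_self _)
  have hz2' : |z.2| ≤ |r| := hz2.trans (le_abs_self _)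
  have hUz : |u z| ≤ |U| := (hU z).trans (le_abs_self _)
  have key : ∀ (x B : ℝ), |x| ≤ B → B + 1 ≤ R → ⌊x⌋ ∈ Finset.Icc (-(R : ℤ)) R := by
    intro x B hx hB
    rw [Finset.mem_Icc]
    obtain ⟨x1, x2⟩ := abs_le.1 hx
    have f1 := Int.floor_le x
    have f2 := Int.lt_floor_add_one x
    constructor
    · have : (-(R : ℤ) : ℝ) ≤ ⌊x⌋ := by push_cast; linarith
      exact_mod_cast this
    · have : ((⌊x⌋ : ℤ) : ℝ) ≤ (R : ℤ) := by push_cast; linarith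
      exact_mod_cast this
  have hn1 : 0 ≤ 2 ^ n * (|r| + |τ|) := by positivity
  have hn2 : 0 ≤ |r| + (|U| + 1) * 2 ^ n * |r| := by positivity
  have hua : |u z / 2 ^ j| ≤ |U| := by
    rw [abs_div, abs_of_pos (by positivity : (0 : ℝ) < 2 ^ j)]
    exact (div_le_self (abs_nonneg _) hpj).trans hUz
  have hfa : |((⌊u z / 2 ^ j⌋ : ℤ) : ℝ)| ≤ |U| + 1 := by
    obtain ⟨x1, x2⟩ := abs_le.1 hua
    have f1 := Int.floor_le (u z / 2 ^ j)
    have f2 := Int.lt_floor_add_one (u z / 2 ^ j)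
    rw [abs_le]; constructor <;> linarith
  simp only [Finset.coe_product, Set.mem_prod, Finset.mem_coe, Finset.mem_range]
  refine ⟨hjn, ?_, ?_, ?_⟩
  · rw [← h1]
    unfold T.q
    apply key _ (2 ^ n * (|r| + |τ|))
    · rw [abs_mul, abs_of_pos (by positivity : (0 : ℝ) < 2 ^ j)]
      have : |z.1 - τ| ≤ |r| + |τ| := (abs_sub _ _).trans (by linarith)
      gcongr
    · linarith [abs_nonneg U]
  · rw [← h2]
    exact key _ _ hua (by linarith)
  · rw [← h3]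
    apply key _ (|r| + (|U| + 1) * 2 ^ n * |r|)
    · calc |z.2 - ⌊u z / 2 ^ j⌋ * 2 ^ j * z.1| ≤ |z.2| + |⌊u z / 2 ^ j⌋ * 2 ^ j * z.1| :=
            abs_sub _ _
        _ ≤ |r| + (|U| + 1) * 2 ^ n * |r| := by
            rw [abs_mul, abs_mul, abs_of_pos (by positivity : (0 : ℝ) < 2 ^ j)]
            gcongr
    · linarith [abs_nonneg U]

end Vale.Agent.P112.F30
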