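import Vale.Agent.P112.F30.FF1

/-!
# (FF) part 2: the forests of one class
-/

open MeasureTheory Set
open scoped ENNReal

set_option linter.dupNamespace false

namespace Vale.Agent.P112.F30

open T H8

/-- selected tops in the grid `τ` -/
structure TopSel (u : ℝ × ℝ → ℝ) (P : ℕ → Set (ℝ × ℝ)) (S H τ : ℝ)
    (F : Finset (ℕ × ℤ × ℤ × ℤ)) (wt : ℕ × ℤ × ℤ × ℤ → ℝ × ℝ) : Prop where
  mem : ∀ t ∈ F, wt t ∈ P t.1
  nn : ∀ t ∈ F, ∀ t' ∈ F, t ≠ t' → ¬ Near u τ S (2 * H + 8) t.1 (wt t) t'.1 (wt t')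
  dom : ∀ j, ∀ z ∈ P j, ∃ t ∈ F, t.1 ≤ j ∧ q τ t.1 z.1 = q τ t.1 (wt t).1 ∧
    |u z - u (wt t)| ≤ (2 * S + 1) * 2 ^ j ∧ |z.2 - ln u (wt t) z.1| ≤ 2 * H + 2 * S + 10

theorem exists_topSel {u : ℝ × ℝ → ℝ} (hu : Field u) {n : ℕ} {P : ℕ → Set (ℝ × ℝ)}
    (hP : PSys n P) {S H : ℝ} (hS : 0 ≤ S) (hH : 0 ≤ H) (τ : ℝ) :
    ∃ F wt, TopSel u P S H τ F wt := by
  classical
  have hfin := finite_tiles hu hP τ
  set F0 : Finset (ℕ × ℤ × ℤ × ℤ) := hfin.toFinset with hF0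
  have hmem : ∀ t, t ∈ F0 ↔ ∃ z ∈ P t.1, tl u τ t.1 z = t.2 := by
    intro t; simp [hF0]
  have hw : ∀ t, ∃ w : ℝ × ℝ, t ∈ F0 → w ∈ P t.1 ∧ tl u τ t.1 w = t.2 := by
    intro t
    by_cases ht : t ∈ F0
    · obtain ⟨z, hz, hzt⟩ := (hmem t).1 ht
      exact ⟨z, fun _ => ⟨hz, hzt⟩⟩
    · exact ⟨0, fun h => absurd h ht⟩
  choose wt hwt using hw
  obtain ⟨G, hGF, hG1, hG2⟩ := exists_sel F0 (fun t => t.1)
    (fun t t' => Near u τ S (2 * H + 8) t.1 (wt t) t'.1 (wt t')) (fun _ _ h => h.symm)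
  refine ⟨G, wt, fun t ht => (hwt t (hGF ht)).1, hG1, ?_⟩
  intro j z hz
  set p : ℕ × ℤ × ℤ × ℤ := (j, tl u τ j z) with hp
  have hpF : p ∈ F0 := (hmem p).2 ⟨z, hz, rfl⟩
  obtain ⟨-, hpt⟩ := hwt p hpF
  have hcl : q τ j z.1 = q τ j (wt p).1 ∧ |u z - u (wt p)| ≤ 2 ^ j ∧
      |z.2 - ln u (wt p) z.1| ≤ 2 := tl_close hpt.symm
  obtain ⟨c1, c2, c3⟩ := hcl
  obtain ⟨t, htG, hlev, ht⟩ := hG2 p hpF
  have h2j : (0 : ℝ) < 2 ^ j := by positivity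
  refine ⟨t, htG, hlev, ?_⟩
  rcases ht with rfl | ⟨hs, x, hx1, hx2, hx3⟩
  · refine ⟨c1, c2.trans ?_, c3.trans ?_⟩
    · nlinarith
    · linarith
  · have hlev' : t.1 ≤ j := hlev
    have hmax : max t.1 p.1 = j := max_eq_right hlev
    rw [hmax] at hs
    have hx2' : q τ j x = q τ j (wt p).1 := hx2
    have hzx : q τ j z.1 = q τ j x := c1.trans hx2'.symm
    have hdist := q_close hzx
    refine ⟨(q_nest_le hlev' hzx).trans hx1, ?_, ?_⟩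
    · calc |u z - u (wt t)| ≤ |u z - u (wt p)| + |u (wt p) - u (wt t)| := abs_sub_le _ _ _
        _ ≤ 2 ^ j + 2 * S * 2 ^ j := by
            rw [abs_sub_comm (u (wt p))]; linarith
        _ = (2 * S + 1) * 2 ^ j := by ring
    · have e : z.2 - ln u (wt t) z.1 = (z.2 - ln u (wt p) z.1) -
          (ln u (wt t) x - ln u (wt p) x) - (u (wt t) - u (wt p)) * (z.1 - x) := by
        unfold ln; ring
      have h5 : |(u (wt t) - u (wt p)) * (z.1 - x)| ≤ 2 * S := by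
        rw [abs_mul]
        calc |u (wt t) - u (wt p)| * |z.1 - x| ≤ (2 * S * 2 ^ j) * (1 / 2 ^ j) := by
              gcongr
          _ = 2 * S := by field_simp
      rw [e]
      have h6 := abs_sub (z.2 - ln u (wt p) z.1 - (ln u (wt t) x - ln u (wt p) x))
        ((u (wt t) - u (wt p)) * (z.1 - x))
      have h7 := abs_sub (z.2 - ln u (wt p) z.1) (ln u (wt t) x - ln u (wt p) x)
      linarith

/-- the top `(lev, U)` is available for the pair `(z, j)` in the window `b` -/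
def Av' (u : ℝ × ℝ → ℝ) (τ H : ℝ) (b : ℤ) (lev : ℕ) (U : ℝ × ℝ) (j : ℕ) (z : ℝ × ℝ) : Prop :=
  lev < j ∧ |u z - u U| ≤ 2 ^ j ∧ b * H ≤ z.2 - ln u U z.1 ∧ z.2 - ln u U z.1 < (b + 1) * H ∧
    q τ lev (z.1 - 1 / (8 * 2 ^ j)) = q τ lev U.1 ∧
    q τ lev (z.1 + 1 / (8 * 2 ^ j)) = q τ lev U.1

theorem Av'.inside {u : ℝ × ℝ → ℝ} {τ H : ℝ} {b : ℤ} {lev : ℕ} {U : ℝ × ℝ} {j : ℕ} {z : ℝ × ℝ}
    (h : Av' u τ H b lev U j z) {x : ℝ} (hx : |x - z.1| ≤ 1 / (8 * 2 ^ j)) :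
    q τ lev x = q τ lev U.1 := by
  obtain ⟨h1, h2⟩ := abs_le.1 hx
  exact q_between h.2.2.2.2.1 h.2.2.2.2.2 (by linarith) (by linarith)

theorem Av'.cell {u : ℝ × ℝ → ℝ} {τ H : ℝ} {b : ℤ} {lev : ℕ} {U : ℝ × ℝ} {j : ℕ} {z : ℝ × ℝ}
    (h : Av' u τ H b lev U j z) : q τ lev z.1 = q τ lev U.1 :=
  h.inside (by simp)

theorem Av'.mono {u : ℝ × ℝ → ℝ} {τ H : ℝ} {b : ℤ} {lev : ℕ} {U : ℝ × ℝ} {j j' : ℕ} {z : ℝ × ℝ}
    (h : Av' u τ H b lev U j z) (hj : j ≤ j') : Av' u τ H b lev U j' z := by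
  have hp : (0 : ℝ) < 2 ^ j := by positivity
  have hpp : (2 : ℝ) ^ j ≤ 2 ^ j' := pow_le_pow_right₀ (by norm_num) hj
  have hr : 1 / (8 * 2 ^ j' : ℝ) ≤ 1 / (8 * 2 ^ j) := by gcongr
  have hr0 : 0 < 1 / (8 * 2 ^ j' : ℝ) := by positivity
  refine ⟨lt_of_lt_of_le h.1 hj, h.2.1.trans hpp, h.2.2.1, h.2.2.2.1, ?_, ?_⟩
  · apply h.inside
    rw [abs_le]; constructor <;> linarith
  · apply h.inside
    rw [abs_le]; constructor <;> linarith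

theorem ln_meas {u : ℝ × ℝ → ℝ} (U : ℝ × ℝ) : Measurable fun z : ℝ × ℝ => ln u U z.1 := by
  unfold ln; fun_prop

theorem Av'.meas {u : ℝ × ℝ → ℝ} (hu : Measurable u) (τ H : ℝ) (b : ℤ) (lev : ℕ) (U : ℝ × ℝ)
    (j : ℕ) : MeasurableSet {z | Av' u τ H b lev U j z} := by
  have e : {z | Av' u τ H b lev U j z} = {z : ℝ × ℝ | lev < j} ∩ ({z | |u z - u U| ≤ 2 ^ j} ∩
      ({z | b * H ≤ z.2 - ln u U z.1} ∩ ({z | z.2 - ln u U z.1 < (b + 1) * H} ∩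
      ({z | q τ lev (z.1 - 1 / (8 * 2 ^ j)) = q τ lev U.1} ∩
      {z | q τ lev (z.1 + 1 / (8 * 2 ^ j)) = q τ lev U.1})))) := by
    ext z; simp [Av']
  rw [e]
  have hl := ln_meas (u := u) U
  refine MeasurableSet.inter (MeasurableSet.const _) (MeasurableSet.inter ?_
    (MeasurableSet.inter ?_ (MeasurableSet.inter ?_ (MeasurableSet.inter ?_ ?_))))
  · exact measurableSet_le (by fun_prop) measurable_const
  · exact measurableSet_le measurable_const (measurable_snd.sub hl)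
  · exact measurableSet_lt (measurable_snd.sub hl) measurable_const
  · exact ((q_meas τ lev).comp (by fun_prop : Measurable fun z : ℝ × ℝ => z.1 - 1 / (8 * 2 ^ j)))
      (measurableSet_singleton _)
  · exact ((q_meas τ lev).comp (by fun_prop : Measurable fun z : ℝ × ℝ => z.1 + 1 / (8 * 2 ^ j)))
      (measurableSet_singleton _)

/-- two available tops of the same window coincide -/
theorem av_unique {u : ℝ × ℝ → ℝ} {P : ℕ → Set (ℝ × ℝ)} {S H D τ : ℝ} (hS : 2 ≤ S) (hH : 1 ≤ H)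
    (hCT : CT u P S D) {F : Finset (ℕ × ℤ × ℤ × ℤ)} {wt : ℕ × ℤ × ℤ × ℤ → ℝ × ℝ}
    (hF : TopSel u P S H τ F wt) {b : ℤ} (hb : |(b : ℝ) * H| + H ≤ D)
    {j : ℕ} {z : ℝ × ℝ} (hz : z ∈ P j) {t t' : ℕ × ℤ × ℤ × ℤ} (ht : t ∈ F) (ht' : t' ∈ F)
    (h : Av' u τ H b t.1 (wt t) j z) (h' : Av' u τ H b t'.1 (wt t') j z) : t = t' := by
  by_contra hne
  apply hF.nn t ht t' ht' hne
  have hp : (0 : ℝ) < 2 ^ j := by positivity
  have hoff : ∀ {s : ℕ × ℤ × ℤ × ℤ}, Av' u τ H b s.1 (wt s) j z →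
      |z.2 - ln u (wt s) z.1| ≤ D := by
    intro s hs
    obtain ⟨b1, b2⟩ := abs_le.1 (le_refl |(b : ℝ) * H|)
    rw [abs_le]
    constructor
    · linarith [hs.2.2.1]
    · linarith [hs.2.2.2.1]
  have hx : ∀ {s : ℕ × ℤ × ℤ × ℤ}, Av' u τ H b s.1 (wt s) j z →
      |z.1 - (wt s).1| ≤ 2 / 2 ^ s.1 := by
    intro s hs
    refine (q_close hs.cell).trans ?_
    gcongr
    norm_num
  refine ⟨hCT j t.1 t'.1 z (wt t) (wt t') hz (hF.mem t ht) (hF.mem t' ht') h.1 h'.1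
    (h.2.1.trans ?_) (h'.2.1.trans ?_) (hx h) (hx h') (hoff h) (hoff h'), z.1, h.cell, h'.cell, ?_⟩
  · nlinarith
  · nlinarith
  · rw [abs_le]
    constructor
    · linarith [h.2.2.1, h.2.2.2.1, h'.2.2.1, h'.2.2.2.1]
    · linarith [h.2.2.1, h.2.2.2.1, h'.2.2.1, h'.2.2.2.1]

/-- separation -/
theorem av_sep {u : ℝ × ℝ → ℝ} {P : ℕ → Set (ℝ × ℝ)} {S H Q D τ : ℝ} (hS : 2 ≤ S) (hH : 1 ≤ H)
    (hQ : 1 ≤ Q) {L : ℕ} (hL : 8 * Q ≤ 2 ^ L)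
    (hCT : CT u P S D) {F : Finset (ℕ × ℤ × ℤ × ℤ)} {wt : ℕ × ℤ × ℤ × ℤ → ℝ × ℝ}
    (hF : TopSel u P S H τ F wt) {b : ℤ} (hb : |(b : ℝ) * H| + 2 * H + Q + 4 ≤ D)
    {j : ℕ} {z : ℝ × ℝ} (hz : z ∈ P (j + L)) {t t' : ℕ × ℤ × ℤ × ℤ} (ht : t ∈ F) (ht' : t' ∈ F)
    (hne : t ≠ t') (h : Av' u τ H b t.1 (wt t) j z) (hlev : t'.1 ≤ j) {ζ : ℝ × ℝ}
    (hζ : ζ ∈ Top τ t'.1 (q τ t'.1 (wt t').1) (u (wt t')) (ln u (wt t') 0 + (b + 1 / 2) * H)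
      (H + 3))
    (h1 : |ζ.1 - z.1| ≤ 1 / (8 * 2 ^ j)) (h2 : |ζ.2 - z.2 - (ζ.1 - z.1) * u z| ≤ 1) :
    Q * 2 ^ j / 1 ≤ |u z - u (wt t')| := by
  by_contra hlt
  rw [div_one] at hlt
  push Not at hlt
  apply hF.nn t ht t' ht' hne
  obtain ⟨hζq, hζl⟩ := hζ
  have hp : (0 : ℝ) < 2 ^ j := by positivity
  have hL0 : 0 < L := by
    rcases Nat.eq_zero_or_pos L with h0 | h0
    · rw [h0] at hL; norm_num at hL; linarith
    · exact h0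
  have hpL : (2 : ℝ) ^ (j + L) = 2 ^ j * 2 ^ L := pow_add _ _ _
  have hlnζ : ln u (wt t') 0 + (b + 1 / 2) * H + u (wt t') * ζ.1 =
      ln u (wt t') ζ.1 + (b + 1 / 2) * H := by unfold ln; ring
  have hA : |ζ.2 - ln u (wt t') ζ.1 - (b + 1 / 2) * H| ≤ H + 3 := by
    have e : ζ.2 - ln u (wt t') ζ.1 - (b + 1 / 2) * H =
        ζ.2 - (ln u (wt t') 0 + (b + 1 / 2) * H) - u (wt t') * ζ.1 := by linarith
    rw [e]; exact hζl
  -- offset of `z` from the line of `t'`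
  have hB1 : |(u (wt t') - u z) * (ζ.1 - z.1)| ≤ Q / 8 := by
    rw [abs_mul, abs_sub_comm (u (wt t'))]
    calc |u z - u (wt t')| * |ζ.1 - z.1| ≤ (Q * 2 ^ j) * (1 / (8 * 2 ^ j)) := by
          gcongr
      _ = Q / 8 := by field_simp
  have hB2 : |(u (wt t) - u z) * (ζ.1 - z.1)| ≤ 1 / 8 := by
    rw [abs_mul, abs_sub_comm (u (wt t))]
    calc |u z - u (wt t)| * |ζ.1 - z.1| ≤ (2 ^ j) * (1 / (8 * 2 ^ j)) := by
          gcongr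
          exact h.2.1
      _ = 1 / 8 := by field_simp
  obtain ⟨a1, a2⟩ := abs_le.1 hA
  obtain ⟨b1, b2⟩ := abs_le.1 hB1
  obtain ⟨c1, c2⟩ := abs_le.1 hB2
  obtain ⟨d1, d2⟩ := abs_le.1 h2
  obtain ⟨f1, f2⟩ := abs_le.1 (le_refl |(b : ℝ) * H|)
  have g1 := h.2.2.1
  have g2 := h.2.2.2.1
  have hlnt' : ln u (wt t') z.1 = ln u (wt t') ζ.1 - u (wt t') * (ζ.1 - z.1) := by
    unfold ln; ring
  have hlnt : ln u (wt t) ζ.1 = ln u (wt t) z.1 + u (wt t) * (ζ.1 - z.1) := by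
    unfold ln; ring
  have hOff' : |z.2 - ln u (wt t') z.1| ≤ D := by
    rw [hlnt', abs_le]
    constructor <;> linarith
  have hOff : |z.2 - ln u (wt t) z.1| ≤ D := by
    rw [abs_le]
    constructor <;> linarith
  have hx : |z.1 - (wt t).1| ≤ 2 / 2 ^ t.1 := by
    refine (q_close h.cell).trans ?_
    gcongr
    norm_num
  have hx' : |z.1 - (wt t').1| ≤ 2 / 2 ^ t'.1 := by
    have e1 := q_close hζq
    have e2 : 1 / (8 * 2 ^ j : ℝ) ≤ 1 / 2 ^ t'.1 := by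
      have : (2 : ℝ) ^ t'.1 ≤ 2 ^ j := pow_le_pow_right₀ (by norm_num) hlev
      gcongr
      linarith
    calc |z.1 - (wt t').1| ≤ |z.1 - ζ.1| + |ζ.1 - (wt t').1| := abs_sub_le _ _ _
      _ ≤ 1 / 2 ^ t'.1 + 1 / 2 ^ t'.1 := by
          rw [abs_sub_comm z.1]; linarith
      _ = 2 / 2 ^ t'.1 := by ring
  refine ⟨hCT (j + L) t.1 t'.1 z (wt t) (wt t') hz (hF.mem t ht) (hF.mem t' ht')
    (by have := h.1; omega) (by omega) (h.2.1.trans ?_) (hlt.le.trans ?_) hx hx' hOff hOff',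
    ζ.1, h.inside h1, hζq, ?_⟩
  · rw [hpL]
    have : (1 : ℝ) ≤ 2 ^ L := one_le_pow₀ (by norm_num)
    nlinarith [mul_pos hp (by linarith : (0 : ℝ) < 2 ^ L)]
  · rw [hpL]
    have h8 : Q ≤ S / 2 * 2 ^ L := by nlinarith
    calc Q * 2 ^ j ≤ (S / 2 * 2 ^ L) * 2 ^ j := by gcongr
      _ = S / 2 * (2 ^ j * 2 ^ L) := by ring
  · rw [hlnt, abs_le]
    constructor <;> linarith

end Vale.Agent.P112.F30
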