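import Vale.Agent.P112.F30.DefsP
import Vale.Agent.P112.H694.Tail

/-!
# P112, chapter (F): `StR0νP` implies `StR0ν` and `StR0P`
-/

open MeasureTheory Set
open scoped ENNReal

set_option linter.dupNamespace false

namespace Vale.Agent.P112.F30

open T

variable {M : ℕ}

theorem stR0ν_of_P {κ : Ker M} (h : StR0νP κ) (h1 : StFD1 4) : StR0ν κ := by
  obtain ⟨C, hC, h⟩ := h
  obtain ⟨C1, hC1, hFD⟩ := h1
  exact ⟨C, hC, fun u hu n ν g hg hg1 => h u hu n ν g _ hg hg1
    (hFD u hu _ (H694.support_meas hg) (H694.support_bdd hg) n ν).1 fun j => subset_rfl⟩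

/-- The tail. -/
theorem tailP (κ : Ker M) (hM : 8 ≤ M) (h1 : StFD1 4) : ∃ C : ℝ, 0 < C ∧ ∀ (u : ℝ × ℝ → ℝ),
    Field u → ∀ (n ν : ℕ) (g : ℝ × ℝ → ℝ) (P : ℕ → Set (ℝ × ℝ)), Nice g → (∀ z, |g z| ≤ 1) →
    (∀ j, MeasurableSet (P j)) → (∀ j, P j ⊆ Plow u {z | g z ≠ 0} 4 n ν j) →
    ∫ ζ, (κ.FS u g P n ζ) ^ 2 ≤ C * n ^ 2 * (1 / 2) ^ ν * (volume {z | g z ≠ 0}).toReal := by
  obtain ⟨C1, hC1, hFD⟩ := h1
  obtain ⟨C0, hκ⟩ := TreeT2.exists_Bd κ
  obtain ⟨C, hC0, hC⟩ := H694.single_scale (M := M) (a := 4 + 2) (C0 := C0) (by omega)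
  refine ⟨C * C1, by positivity, fun u hu n ν g P hg hg1 hmP hsub => ?_⟩
  set E : Set (ℝ × ℝ) := {z | g z ≠ 0} with hE
  obtain ⟨-, -, -, -, hDP⟩ := hFD u hu E (H694.support_meas hg) (H694.support_bdd hg) n ν
  have hδ : 0 < C1 * (1 / 2 : ℝ) ^ ν := by positivity
  have hj : ∀ j < n, ∫ ζ, (κ.S u j ((P j).indicator g) ζ) ^ 2 ≤
      C * (C1 * (1 / 2) ^ ν) * (volume E).toReal :=
    fun j hjn => hC 1 κ hκ 0 u hu n P hmP _ hδ (hDP.mono hsub) g hg hg1 j hjn
  have hN : ∀ j, Nice (κ.S u j ((P j).indicator g)) := fun j => κ.S_nice hu j (hg.indicator (hmP j))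
  calc ∫ ζ, (κ.FS u g P n ζ) ^ 2
      ≤ ∫ ζ, (n : ℝ) * ∑ j ∈ Finset.range n, (κ.S u j ((P j).indicator g) ζ) ^ 2 := by
        apply integral_mono (κ.FS_nice hu hg hmP n).sq.integrable
        · exact (Nice.sum (Finset.range n) fun j _ => (hN j).sq).integrable.const_mul _
        · intro ζ
          have := sq_sum_le_card_mul_sum_sq (s := Finset.range n)
            (f := fun j => κ.S u j ((P j).indicator g) ζ)
          rw [Finset.card_range] at this
          exact this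
    _ = n * ∑ j ∈ Finset.range n, ∫ ζ, (κ.S u j ((P j).indicator g) ζ) ^ 2 := by
        rw [integral_const_mul, integral_finsetSum _ fun j _ => (hN j).sq.integrable]
    _ ≤ n * ∑ _j ∈ Finset.range n, C * (C1 * (1 / 2) ^ ν) * (volume E).toReal := by
        gcongr with j hjr
        exact hj j (Finset.mem_range.1 hjr)
    _ = C * C1 * n ^ 2 * (1 / 2) ^ ν * (volume E).toReal := by
        rw [Finset.sum_const, Finset.card_range, nsmul_eq_mul]
        ring

/-- Splitting the system into levels, pointwise. -/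
theorem level_dec {u : ℝ × ℝ → ℝ} {E : Set (ℝ × ℝ)} {n N : ℕ} {P : ℕ → Set (ℝ × ℝ)}
    (hsub : ∀ j, P j ⊆ E) (hlt : ∀ j, n ≤ j → P j = ∅)
    (h1 : ∀ z ∈ E, ∀ j < n, dens u E 4 z j ≤ 1) (g : ℝ × ℝ → ℝ) (j : ℕ) (z : ℝ × ℝ) :
    (P j).indicator g z = (P j ∩ Plow u E 4 n N j).indicator g z +
      ∑ ν ∈ Finset.range N, (P j ∩ Pd u E 4 n ν j).indicator g z := by
  classical
  by_cases hz : z ∈ P j
  swap
  · rw [indicator_of_notMem hz, indicator_of_notMem fun h => hz h.1]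
    rw [Finset.sum_eq_zero fun ν _ => indicator_of_notMem (fun h => hz h.1) _, add_zero]
  have hj : j < n := by
    by_contra h
    rw [hlt j (not_lt.1 h)] at hz
    exact hz
  have hzE : z ∈ E := hsub j hz
  rw [indicator_of_mem hz]
  by_cases hlow : dens u E 4 z j ≤ (1 / 2) ^ N
  · have h2 : z ∈ P j ∩ Plow u E 4 n N j := ⟨hz, hzE, hj, hlow⟩
    rw [indicator_of_mem h2, Finset.sum_eq_zero, add_zero]
    intro ν hν
    refine indicator_of_notMem (fun h => ?_) _
    have h3 : (1 / 2 : ℝ≥0∞) ^ (ν + 1) < (1 / 2) ^ N := h.2.2.2.1.trans_le hlow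
    have h4 : (1 / 2 : ℝ≥0∞) ^ N ≤ (1 / 2) ^ (ν + 1) :=
      pow_le_pow_right_of_le_one' (by norm_num) (Finset.mem_range.1 hν)
    exact absurd h3 (not_lt.2 h4)
  · have h2 : z ∉ P j ∩ Plow u E 4 n N j := fun h => hlow h.2.2.2
    rw [indicator_of_notMem h2, zero_add]
    -- the level
    have hex : ∃ ν, (1 / 2 : ℝ≥0∞) ^ (ν + 1) < dens u E 4 z j := ⟨N, by
      refine lt_of_le_of_lt ?_ (not_le.1 hlow)
      exact pow_le_pow_right_of_le_one' (by norm_num) (Nat.le_succ N)⟩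
    set ν := Nat.find hex with hν
    have hν1 := Nat.find_spec hex
    rw [← hν] at hν1
    have hν2 : dens u E 4 z j ≤ (1 / 2) ^ ν := by
      rcases Nat.eq_zero_or_pos ν with h0 | h0
      · rw [h0, pow_zero]
        exact h1 z hzE j hj
      · have := Nat.find_min hex (m := ν - 1) (by omega)
        rw [Nat.sub_add_cancel h0] at this
        exact not_lt.1 this
    have hνN : ν < N := by
      by_contra h
      have h4 : (1 / 2 : ℝ≥0∞) ^ ν ≤ (1 / 2) ^ N :=
        pow_le_pow_right_of_le_one' (by norm_num) (not_lt.1 h)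
      exact hlow (hν2.trans h4)
    rw [Finset.sum_eq_single_of_mem ν (Finset.mem_range.2 hνN)]
    · have h5 : z ∈ P j ∩ Pd u E 4 n ν j := ⟨hz, hzE, hj, hν1, hν2⟩
      rw [indicator_of_mem h5]
    · intro ν' _ hne
      refine indicator_of_notMem (fun h => hne ?_) _
      have h6 : (1 / 2 : ℝ≥0∞) ^ (ν + 1) < (1 / 2) ^ ν' := hν1.trans_le h.2.2.2.2
      have h7 : (1 / 2 : ℝ≥0∞) ^ (ν' + 1) < (1 / 2) ^ ν := h.2.2.2.1.trans_le hν2
      have h8 : ν' < ν + 1 := by
        by_contra hc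
        exact absurd h6 (not_lt.2 (pow_le_pow_right_of_le_one' (by norm_num) (not_lt.1 hc)))
      have h9 : ν < ν' + 1 := by
        by_contra hc
        exact absurd h7 (not_lt.2 (pow_le_pow_right_of_le_one' (by norm_num) (not_lt.1 hc)))
      omega

/-- **(R0)** for every system from **(R0ν)** for every system. -/
theorem stR0P_of {κ : Ker M} (hM : 8 ≤ M) (h : StR0νP κ) (h1 : StFD1 4) : StR0P κ := by
  obtain ⟨Ct, hCt, htail⟩ := tailP κ hM h1
  obtain ⟨C, hC, h⟩ := h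
  obtain ⟨C1, hC1, hFD⟩ := h1
  refine ⟨2 * Ct + 2 * (20 * (20 * C)), by positivity, fun u hu n g P hg hg1 hP hsub => ?_⟩
  set E : Set (ℝ × ℝ) := {z | g z ≠ 0} with hE
  have hmE := H694.support_meas hg
  have hbE := H694.support_bdd hg
  -- a level with n ^ 2 ≤ 2 ^ N
  obtain ⟨N, hN⟩ : ∃ N : ℕ, (n : ℝ) ^ 2 * (1 / 2) ^ N ≤ 1 := by
    refine ⟨2 * n, ?_⟩
    have h2 : (n : ℝ) ≤ 2 ^ n := by exact_mod_cast Nat.lt_two_pow_self.le
    rw [pow_mul', ← mul_pow]
    have h3 : (n : ℝ) * (1 / 2) ^ n ≤ 1 := by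
      rw [one_div, inv_pow, ← div_eq_mul_inv, div_le_one (by positivity)]
      exact h2
    exact pow_le_one₀ (by positivity) h3
  have hPd : ∀ ν, PSys n fun j => P j ∩ Pd u E 4 n ν j := fun ν =>
    hP.inter (hFD u hu E hmE hbE n ν).1
  have hlm : ∀ j, MeasurableSet (P j ∩ Plow u E 4 n N j) := fun j =>
    (hP.meas j).inter ((hFD u hu E hmE hbE n N).2.2.1 j)
  set F : ℕ → ℝ × ℝ → ℝ := fun ν => κ.FS u g (fun j => P j ∩ Pd u E 4 n ν j) n with hF
  set G : ℝ × ℝ → ℝ := κ.FS u g (fun j => P j ∩ Plow u E 4 n N j) n with hG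
  have hFn : ∀ ν, Nice (F ν) := fun ν => κ.FS_nice hu hg (hPd ν).meas n
  have hGn : Nice G := κ.FS_nice hu hg hlm n
  have hdec : ∀ ζ, κ.FS u g P n ζ = G ζ + ∑ ν ∈ Finset.range N, F ν ζ := by
    intro ζ
    simp only [hG, hF]
    unfold Ker.FS
    rw [Finset.sum_comm, ← Finset.sum_add_distrib]
    refine Finset.sum_congr rfl fun j _ => ?_
    have e : (P j).indicator g = fun z => (P j ∩ Plow u E 4 n N j).indicator g z +
        ∑ ν ∈ Finset.range N, (P j ∩ Pd u E 4 n ν j).indicator g z :=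
      funext fun z => level_dec hsub hP.lt (hFD u hu E hmE hbE n 0).2.1 g j z
    rw [e]
    have hs : Nice fun z => ∑ ν ∈ Finset.range N, (P j ∩ Pd u E 4 n ν j).indicator g z :=
      Nice.sum _ fun ν _ => hg.indicator ((hPd ν).meas j)
    have h2 : κ.S u j (fun z => (P j ∩ Plow u E 4 n N j).indicator g z +
        ∑ ν ∈ Finset.range N, (P j ∩ Pd u E 4 n ν j).indicator g z) ζ =
        κ.S u j ((P j ∩ Plow u E 4 n N j).indicator g) ζ +
        κ.S u j (fun z => ∑ ν ∈ Finset.range N, (P j ∩ Pd u E 4 n ν j).indicator g z) ζ := by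
      unfold Ker.S
      simp_rw [mul_add]
      exact integral_add (integrable_S_int κ hu j (hg.indicator (hlm j)) ζ)
        (integrable_S_int κ hu j hs ζ)
    rw [h2]
    congr 1
    exact S_sum κ hu j (Finset.range N) (fun ν _ => hg.indicator ((hPd ν).meas j)) ζ
  have hV : 0 ≤ (volume E).toReal := ENNReal.toReal_nonneg
  have hb1 : ∫ ζ, (G ζ) ^ 2 ≤ Ct * (volume E).toReal := by
    refine (htail u hu n N g _ hg hg1 hlm fun j => inter_subset_right).trans ?_
    calc Ct * n ^ 2 * (1 / 2) ^ N * (volume E).toReal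
        = Ct * (n ^ 2 * (1 / 2) ^ N) * (volume E).toReal := by ring
      _ ≤ Ct * 1 * (volume E).toReal := by gcongr
      _ = _ := by ring
  have hb2 : ∫ ζ, (∑ ν ∈ Finset.range N, F ν ζ) ^ 2 ≤ 20 * (20 * C) * (volume E).toReal := by
    refine (int_sq_sum_le (Finset.range N) (w := fun ν => (19 / 20 : ℝ) ^ ν) (fun i _ => hFn i)
      fun i _ => by positivity).trans ?_
    have hgeo : ∀ x : ℝ, 0 ≤ x → x ≤ 19 / 20 → ∑ ν ∈ Finset.range N, x ^ ν ≤ 20 := by
      intro x hx0 hx1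
      have h2 : ∑ ν ∈ Finset.range N, x ^ ν ≤ (1 - x)⁻¹ := by
        rw [← tsum_geometric_of_lt_one hx0 (by linarith)]
        exact (summable_geometric_of_lt_one hx0 (by linarith)).sum_le_tsum _
          fun i _ => by positivity
      refine h2.trans ?_
      rw [inv_le_comm₀ (by linarith) (by norm_num)]
      norm_num
      linarith
    have hterm : ∀ ν ∈ Finset.range N, (∫ ζ, (F ν ζ) ^ 2) / (19 / 20 : ℝ) ^ ν ≤
        C * (volume E).toReal * (18 / 19) ^ ν := by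
      intro ν _
      have h2 := h u hu n ν g _ hg hg1 (hPd ν) fun j => inter_subset_right
      rw [div_le_iff₀ (by positivity)]
      refine h2.trans (le_of_eq ?_)
      rw [show (9 / 10 : ℝ) = 18 / 19 * (19 / 20) by norm_num, mul_pow]
      ring
    calc (∑ ν ∈ Finset.range N, (19 / 20 : ℝ) ^ ν) *
          ∑ ν ∈ Finset.range N, (∫ ζ, (F ν ζ) ^ 2) / (19 / 20 : ℝ) ^ ν
        ≤ 20 * ∑ ν ∈ Finset.range N, C * (volume E).toReal * (18 / 19) ^ ν := by
          refine mul_le_mul (hgeo _ (by norm_num) (by norm_num)) (Finset.sum_le_sum hterm)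
            (Finset.sum_nonneg fun ν _ => ?_) (by norm_num)
          exact div_nonneg (integral_nonneg fun ζ => sq_nonneg _) (by positivity)
      _ = 20 * (C * (volume E).toReal * ∑ ν ∈ Finset.range N, (18 / 19 : ℝ) ^ ν) := by
          congr 1
          rw [Finset.mul_sum]
      _ ≤ 20 * (C * (volume E).toReal * 20) := by
          gcongr
          exact hgeo _ (by norm_num) (by norm_num)
      _ = _ := by ring
  calc ∫ ζ, (κ.FS u g P n ζ) ^ 2
      ≤ ∫ ζ, (2 * (G ζ) ^ 2 + 2 * (∑ ν ∈ Finset.range N, F ν ζ) ^ 2) := by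
        refine integral_mono (κ.FS_nice hu hg hP.meas n).sq.integrable
          ((hGn.sq.const_mul 2).add ((Nice.sum _ fun ν _ => hFn ν).sq.const_mul 2)).integrable
          fun ζ => ?_
        show (κ.FS u g P n ζ) ^ 2 ≤ 2 * (G ζ) ^ 2 + 2 * (∑ ν ∈ Finset.range N, F ν ζ) ^ 2
        rw [hdec ζ]
        nlinarith [sq_nonneg (G ζ - ∑ ν ∈ Finset.range N, F ν ζ)]
    _ = 2 * (∫ ζ, (G ζ) ^ 2) + 2 * ∫ ζ, (∑ ν ∈ Finset.range N, F ν ζ) ^ 2 := by
        rw [integral_add (hGn.sq.const_mul 2).integrable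
          ((Nice.sum _ fun ν _ => hFn ν).sq.const_mul 2).integrable, integral_const_mul,
          integral_const_mul]
    _ ≤ 2 * (Ct * (volume E).toReal) + 2 * (20 * (20 * C) * (volume E).toReal) := by gcongr
    _ = _ := by ring

end Vale.Agent.P112.F30
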